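import Vale.Agent.P272.CT.Weyl

/-! P272 / CT (helper853): calculus of the weak `∂̄` equation. -/

set_option linter.unusedSectionVars false

open MeasureTheory Filter Topology Set Metric
open scoped ContDiff

namespace Vale.Agent.P272.CT

noncomputable section

variable {E : Type*} [NormedAddCommGroup E] [NormedSpace ℂ E]
  {F : Type*} [NormedAddCommGroup F] [NormedSpace ℂ F] {Ω : Set ℂ} {v q w r : ℂ → E}

/-- `C¹` test functions are allowed -/
theorem WDb.test1 [CompleteSpace E] (hΩ : IsOpen Ω) (hv : ContinuousOn v Ω)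
    (hq : ContinuousOn q Ω) (h : WDb Ω v q) {η : ℂ → ℂ} (hη : ContDiff ℝ 1 η)
    (hc : HasCompactSupport η) (hs : tsupport η ⊆ Ω) :
    ∫ z, dbar η z • v z = - ∫ z, η z • q z := by
  -- `η` itself is a weak solution of `∂̄η = dbar η`; test with cut-off times approximations of `v`
  have hdc : Continuous (dbar η) := by
    have h1 : Continuous (fderiv ℝ η) := hη.continuous_fderiv (by simp)
    unfold dbar
    exact continuous_const.mul ((h1.clm_apply continuous_const).add
      (continuous_const.mul (h1.clm_apply continuous_const)))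
  have hds : HasCompactSupport (dbar η) := hasCompactSupport_dbar hc
  have hi1 : Integrable fun z => dbar η z • v z :=
    integrable_smul_of_tsupport hΩ hdc hds hv ((tsupport_dbar η).trans hs)
  have hi2 : Integrable fun z => η z • q z :=
    integrable_smul_of_tsupport hΩ hη.continuous hc hq hs
  have hn1 : Integrable fun z => ‖dbar η z‖ := (hdc.integrable_of_hasCompactSupport hds).norm
  have hn2 : Integrable fun z => ‖η z‖ := (hη.continuous.integrable_of_hasCompactSupport hc).norm
  set C : ℝ := (∫ z, ‖dbar η z‖) + ∫ z, ‖η z‖ with hC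
  have hC0 : 0 ≤ C := add_nonneg (integral_nonneg fun _ => norm_nonneg _)
    (integral_nonneg fun _ => norm_nonneg _)
  have key : ∀ ε : ℝ, 0 < ε → ‖(∫ z, dbar η z • v z) + ∫ z, η z • q z‖ ≤ ε * C := by
    intro ε hε
    obtain ⟨v', hv', hap⟩ := h.approx hΩ hv hq hc hs hε
    -- integration by parts for the smooth function `v'` and the `C¹` function `η`
    have h1 : ∫ z, dbar η z • v' z = - ∫ z, η z • dbarV v' z := by
      have hb : Integrable fun z => dbarV (fun z => η z • v' z) z := by
        have h2 : ContDiff ℝ 1 fun z => η z • v' z := hη.smul (hv'.of_le (by simp))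
        have h3 : Continuous (dbarV fun z => η z • v' z) :=
          continuousOn_univ.1 (continuousOn_dbarV isOpen_univ h2.contDiffOn)
        refine h3.integrable_of_hasCompactSupport ?_
        refine HasCompactSupport.intro hc fun z hz => ?_
        have h4 : (fun z => η z • v' z) =ᶠ[𝓝 z] fun _ => 0 := by
          filter_upwards [(isClosed_tsupport η).isOpen_compl.mem_nhds hz] with y hy
          rw [image_eq_zero_of_notMem_tsupport hy, zero_smul]
        rw [dbarV_congr h4]
        simp [dbarV]
      have hz : ∫ z, dbarV (fun z => η z • v' z) z = 0 := by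
        have h2 : ContDiff ℝ 1 fun z => η z • v' z := hη.smul (hv'.of_le (by simp))
        have hsupp : HasCompactSupport fun z => η z • v' z := hc.smul_right
        have hpart : ∀ w : ℂ, Integrable (fun z => fderiv ℝ (fun z => η z • v' z) z w) ∧
            ∫ z, fderiv ℝ (fun z => η z • v' z) z w = 0 := by
          intro w
          have hi : Integrable fun z => fderiv ℝ (fun z => η z • v' z) z w := by
            refine ((h2.continuous_fderiv (by simp)).clm_apply
              continuous_const).integrable_of_hasCompactSupport ?_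
            exact (hsupp.fderiv (𝕜 := ℝ)).comp_left (g := fun L => L w) (by simp)
          refine ⟨hi, ?_⟩
          obtain ⟨χ, hχs, hχc, hχ1⟩ : ∃ χ : ℂ → ℝ, ContDiff ℝ ∞ χ ∧ HasCompactSupport χ ∧
              ∀ z ∈ tsupport η, χ =ᶠ[𝓝 z] fun _ => 1 := by
            obtain ⟨R, hR⟩ := (show IsCompact (tsupport η) from hc).isBounded.subset_ball 0
            have hR0 : 0 < max R 1 := lt_max_of_lt_right one_pos
            let b : ContDiffBump (0 : ℂ) := ⟨max R 1, max R 1 + 1, hR0, by linarith⟩
            refine ⟨b, b.contDiff, b.hasCompactSupport, fun z hz => ?_⟩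
            have hz' : z ∈ ball (0 : ℂ) (max R 1) :=
              ball_subset_ball (le_max_left _ _) (hR hz)
            filter_upwards [isOpen_ball.mem_nhds hz'] with y hy
            exact b.one_of_mem_closedBall (ball_subset_closedBall hy)
          have h3 := integral_smul_fderiv_eq_neg_fderiv_smul_of_integrable
            (μ := (volume : Measure ℂ)) (𝕜 := ℝ) (f := χ) (g := fun z => η z • v' z) (v := w)
            ?_ ?_ ?_ ?_ ?_
          · have e1 : ∀ z, χ z • fderiv ℝ (fun z => η z • v' z) z w =
                fderiv ℝ (fun z => η z • v' z) z w := by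
              intro z
              by_cases hz : z ∈ tsupport η
              · rw [(hχ1 z hz).self_of_nhds, one_smul]
              · have h4 : (fun z => η z • v' z) =ᶠ[𝓝 z] fun _ => 0 := by
                  filter_upwards [(isClosed_tsupport η).isOpen_compl.mem_nhds hz] with y hy
                  rw [image_eq_zero_of_notMem_tsupport hy, zero_smul]
                rw [h4.fderiv_eq]
                simp
            have e2 : ∀ z, fderiv ℝ χ z w • (η z • v' z) = 0 := by
              intro z
              by_cases hz : z ∈ tsupport η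
              · rw [(hχ1 z hz).fderiv_eq]
                simp
              · rw [image_eq_zero_of_notMem_tsupport hz, zero_smul, smul_zero]
            simp only [e1, e2] at h3
            simpa using h3
          · have hcw : Continuous fun z => fderiv ℝ χ z w :=
              (hχs.continuous_fderiv (by simp)).clm_apply continuous_const
            exact (hcw.smul h2.continuous).integrable_of_hasCompactSupport
              (hsupp.smul_left)
          · exact (hχs.continuous.smul ((h2.continuous_fderiv (by simp)).clm_apply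
              continuous_const)).integrable_of_hasCompactSupport hχc.smul_right
          · exact (hχs.continuous.smul h2.continuous).integrable_of_hasCompactSupport
              hχc.smul_right
          · exact fun z _ => (hχs.differentiable (by simp)).differentiableAt
          · exact fun z _ => (h2.differentiable (by simp)).differentiableAt
        have hI : Integrable fun z => Complex.I • fderiv ℝ (fun z => η z • v' z) z Complex.I :=
          (hpart Complex.I).1.smul Complex.I
        unfold dbarV
        rw [integral_smul, integral_add (hpart 1).1 hI,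
          integral_smul, (hpart 1).2, (hpart Complex.I).2]
        simp
      have hpt : ∀ z, dbarV (fun z => η z • v' z) z = dbar η z • v' z + η z • dbarV v' z :=
        fun z => dbarV_smul (hη.differentiable (by simp)).differentiableAt
          (hv'.differentiable (by simp)).differentiableAt
      simp only [hpt] at hz
      rw [integral_add] at hz
      · exact eq_neg_of_add_eq_zero_left hz
      · exact integrable_smul_of_tsupport isOpen_univ hdc hds hv'.continuous.continuousOn
          (subset_univ _)
      · exact integrable_smul_of_tsupport isOpen_univ hη.continuous hc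
          (continuousOn_dbarV isOpen_univ (hv'.of_le (by simp)).contDiffOn) (subset_univ _)
    have hi3 : Integrable fun z => dbar η z • v' z :=
      integrable_smul_of_tsupport isOpen_univ hdc hds hv'.continuous.continuousOn (subset_univ _)
    have hi4 : Integrable fun z => η z • dbarV v' z :=
      integrable_smul_of_tsupport isOpen_univ hη.continuous hc
          (continuousOn_dbarV isOpen_univ (hv'.of_le (by simp)).contDiffOn) (subset_univ _)
    have e1 : (∫ z, dbar η z • v z) + ∫ z, η z • q z =
        (∫ z, dbar η z • (v z - v' z)) + ∫ z, η z • (q z - dbarV v' z) := by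
      simp_rw [smul_sub]
      rw [integral_sub hi1 hi3, integral_sub hi2 hi4, h1]
      abel
    rw [e1]
    have b1 : ‖∫ z, dbar η z • (v z - v' z)‖ ≤ ε * ∫ z, ‖dbar η z‖ := by
      rw [← integral_const_mul]
      refine norm_integral_le_of_norm_le (hn1.const_mul ε) (Eventually.of_forall fun z => ?_)
      rw [norm_smul, mul_comm]
      by_cases hz : z ∈ tsupport η
      · refine mul_le_mul_of_nonneg_right ?_ (norm_nonneg _)
        rw [norm_sub_rev]
        exact (hap z hz).1.le
      · have : dbar η z = 0 := by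
          by_contra h2
          exact hz (tsupport_dbar η (subset_tsupport _ h2))
        rw [this, norm_zero, mul_zero, mul_zero]
    have b2 : ‖∫ z, η z • (q z - dbarV v' z)‖ ≤ ε * ∫ z, ‖η z‖ := by
      rw [← integral_const_mul]
      refine norm_integral_le_of_norm_le (hn2.const_mul ε) (Eventually.of_forall fun z => ?_)
      rw [norm_smul, mul_comm]
      by_cases hz : z ∈ tsupport η
      · refine mul_le_mul_of_nonneg_right ?_ (norm_nonneg _)
        rw [norm_sub_rev]
        exact (hap z hz).2.1.le
      · have : η z = 0 := by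
          by_contra h2
          exact hz (subset_tsupport _ h2)
        rw [this, norm_zero, mul_zero, mul_zero]
    calc _ ≤ _ := norm_add_le _ _
      _ ≤ ε * (∫ z, ‖dbar η z‖) + ε * ∫ z, ‖η z‖ := add_le_add b1 b2
      _ = ε * C := by rw [hC]; ring
  have h0 : ‖(∫ z, dbar η z • v z) + ∫ z, η z • q z‖ ≤ 0 := by
    refine le_of_forall_pos_le_add fun ε hε => ?_
    rw [zero_add]
    have := key (ε / (C + 1)) (by positivity)
    refine this.trans ?_
    rw [div_mul_eq_mul_div, div_le_iff₀ (by positivity)]
    nlinarith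
  have h1 : (∫ z, dbar η z • v z) + ∫ z, η z • q z = 0 := norm_le_zero_iff.1 h0
  exact eq_neg_of_add_eq_zero_left h1

theorem WDb.const (hΩ : IsOpen Ω) (c : E) : WDb Ω (fun _ => c) fun _ => 0 := by
  have h := WDb.of_contDiffOn hΩ (contDiffOn_const (c := c) (n := 1) (𝕜 := ℝ) (s := Ω))
  refine h.congr (fun _ _ => rfl) fun z _ => ?_
  simp [dbarV]

theorem WDb.add (hΩ : IsOpen Ω) (hv : ContinuousOn v Ω) (hq : ContinuousOn q Ω)
    (hw : ContinuousOn w Ω) (hr : ContinuousOn r Ω) (h1 : WDb Ω v q) (h2 : WDb Ω w r) :
    WDb Ω (fun z => v z + w z) fun z => q z + r z := by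
  intro η hη hc hs
  have hd : Continuous (dbar η) := (contDiff_dbar hη).continuous
  have hds := hasCompactSupport_dbar hc
  simp_rw [smul_add]
  rw [integral_add (integrable_smul_of_tsupport hΩ hd hds hv ((tsupport_dbar η).trans hs))
    (integrable_smul_of_tsupport hΩ hd hds hw ((tsupport_dbar η).trans hs)),
    integral_add (integrable_smul_of_tsupport hΩ hη.continuous hc hq hs)
    (integrable_smul_of_tsupport hΩ hη.continuous hc hr hs), h1 η hη hc hs, h2 η hη hc hs]
  abel

theorem WDb.const_smul (c : ℂ) (h : WDb Ω v q) : WDb Ω (fun z => c • v z) fun z => c • q z := by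
  intro η hη hc hs
  simp_rw [smul_comm _ c]
  rw [integral_smul, integral_smul, h η hη hc hs, smul_neg]

theorem WDb.neg (h : WDb Ω v q) : WDb Ω (fun z => - v z) fun z => - q z := by
  have := h.const_smul (-1)
  simpa using this

theorem WDb.sub (hΩ : IsOpen Ω) (hv : ContinuousOn v Ω) (hq : ContinuousOn q Ω)
    (hw : ContinuousOn w Ω) (hr : ContinuousOn r Ω) (h1 : WDb Ω v q) (h2 : WDb Ω w r) :
    WDb Ω (fun z => v z - w z) fun z => q z - r z := by
  simp_rw [sub_eq_add_neg]
  exact WDb.add hΩ hv hq hw.neg hr.neg h1 h2.neg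

theorem WDb.sum (hΩ : IsOpen Ω) {ι : Type*} (s : Finset ι) {v q : ι → ℂ → E}
    (hv : ∀ i ∈ s, ContinuousOn (v i) Ω) (hq : ∀ i ∈ s, ContinuousOn (q i) Ω)
    (h : ∀ i ∈ s, WDb Ω (v i) (q i)) :
    WDb Ω (fun z => ∑ i ∈ s, v i z) fun z => ∑ i ∈ s, q i z := by
  classical
  induction s using Finset.induction_on with
  | empty => simpa using WDb.const hΩ (0 : E)
  | insert a s ha ih =>
    simp_rw [Finset.sum_insert ha]
    refine WDb.add hΩ (hv a (Finset.mem_insert_self a s)) (hq a (Finset.mem_insert_self a s))
      (continuousOn_finsetSum s fun i hi => hv i (Finset.mem_insert_of_mem hi))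
      (continuousOn_finsetSum s fun i hi => hq i (Finset.mem_insert_of_mem hi))
      (h a (Finset.mem_insert_self a s)) (ih (fun i hi => hv i (Finset.mem_insert_of_mem hi))
        (fun i hi => hq i (Finset.mem_insert_of_mem hi))
        fun i hi => h i (Finset.mem_insert_of_mem hi))

theorem WDb.clm [CompleteSpace E] [CompleteSpace F] (hΩ : IsOpen Ω) (hv : ContinuousOn v Ω)
    (hq : ContinuousOn q Ω) (h : WDb Ω v q) (L : E →L[ℂ] F) :
    WDb Ω (fun z => L (v z)) fun z => L (q z) := by
  intro η hη hc hs
  have hd : Continuous (dbar η) := (contDiff_dbar hη).continuous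
  have hds := hasCompactSupport_dbar hc
  simp_rw [← map_smul]
  rw [L.integral_comp_comm (integrable_smul_of_tsupport hΩ hd hds hv
    ((tsupport_dbar η).trans hs)), L.integral_comp_comm
    (integrable_smul_of_tsupport hΩ hη.continuous hc hq hs), h η hη hc hs, map_neg]

theorem WDb.pi [CompleteSpace F] (hΩ : IsOpen Ω) {ι : Type*} [Fintype ι] {v q : ℂ → ι → F}
    (hv : ContinuousOn v Ω) (hq : ContinuousOn q Ω)
    (h : ∀ i, WDb Ω (fun z => v z i) fun z => q z i) : WDb Ω v q := by
  intro η hη hc hs
  have hd : Continuous (dbar η) := (contDiff_dbar hη).continuous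
  have hds := hasCompactSupport_dbar hc
  funext i
  have h1 := (ContinuousLinearMap.proj (R := ℂ) (φ := fun _ : ι => F) i).integral_comp_comm
    (integrable_smul_of_tsupport hΩ hd hds hv ((tsupport_dbar η).trans hs))
  have h2 := (ContinuousLinearMap.proj (R := ℂ) (φ := fun _ : ι => F) i).integral_comp_comm
    (integrable_smul_of_tsupport hΩ hη.continuous hc hq hs)
  have h3 := h i η hη hc hs
  simp only [ContinuousLinearMap.proj_apply] at h1 h2
  rw [← h1, Pi.neg_apply, ← h2]
  exact h3

theorem WDb.apply [CompleteSpace F] (hΩ : IsOpen Ω) {ι : Type*} [Fintype ι] {v q : ℂ → ι → F}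
    (hv : ContinuousOn v Ω) (hq : ContinuousOn q Ω) (h : WDb Ω v q) (i : ι) :
    WDb Ω (fun z => v z i) fun z => q z i :=
  h.clm hΩ hv hq (ContinuousLinearMap.proj (R := ℂ) (φ := fun _ : ι => F) i)

/-- uniqueness of the right hand side -/
theorem WDb.eqOn [CompleteSpace E] (hΩ : IsOpen Ω) (hv : ContinuousOn v Ω)
    (hq : ContinuousOn q Ω) (hr : ContinuousOn r Ω) (h1 : WDb Ω v q) (h2 : WDb Ω v r) :
    EqOn q r Ω := by
  have h3 : WDb Ω (fun z => v z - v z) fun z => q z - r z := WDb.sub hΩ hv hq hv hr h1 h2
  have hc0 : ContinuousOn (fun z => q z - r z) Ω := hq.sub hr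
  have hae : ∀ᵐ z : ℂ, z ∈ Ω → q z - r z = 0 := by
    refine hΩ.ae_eq_zero_of_integral_contDiff_smul_eq_zero
      (hc0.locallyIntegrableOn hΩ.measurableSet) fun g hg hgc hgs => ?_
    have h4 : tsupport (fun z => (g z : ℂ)) ⊆ tsupport g := by
      refine closure_mono fun z hz => ?_
      simpa using hz
    have h5 := h3 (fun z => (g z : ℂ)) (Complex.ofRealCLM.contDiff.comp hg)
      (hgc.comp_left (g := fun t : ℝ => (t : ℂ)) (by simp)) (h4.trans hgs)
    simp only [sub_self, smul_zero, integral_zero] at h5
    have h6 := neg_eq_zero.1 h5.symm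
    simp_rw [Complex.coe_smul] at h6
    exact h6
  have h4 : (fun z => q z - r z) =ᵐ[volume.restrict Ω] fun _ => (0 : E) :=
    (ae_restrict_iff' hΩ.measurableSet).2 hae
  have h5 := Measure.eqOn_open_of_ae_eq h4 hΩ hc0 continuousOn_const
  exact fun z hz => sub_eq_zero.1 (h5 hz)

/-- weak plus `C¹` gives pointwise -/
theorem WDb.dbarV_eq [CompleteSpace E] (hΩ : IsOpen Ω) (hv : ContDiffOn ℝ 1 v Ω)
    (hq : ContinuousOn q Ω) (h : WDb Ω v q) : EqOn (dbarV v) q Ω :=
  WDb.eqOn hΩ hv.continuousOn (continuousOn_dbarV hΩ hv) hq (WDb.of_contDiffOn hΩ hv) h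

/-- product rule, scalar times vector -/
theorem WDb.smul [CompleteSpace E] (hΩ : IsOpen Ω) {f f' : ℂ → ℂ} (hf : ContinuousOn f Ω)
    (hf' : ContinuousOn f' Ω) (hv : ContinuousOn v Ω) (hq : ContinuousOn q Ω)
    (h1 : WDb Ω f f') (h2 : WDb Ω v q) :
    WDb Ω (fun z => f z • v z) fun z => f' z • v z + f z • q z := by
  have h3 := WDb.prodMk hΩ hf hf' hv hq h1 h2
  have h4 := h3.comp_holo hΩ (hf.prodMk hv) (hf'.prodMk hq) (W := univ) isOpen_univ
    (Φ := fun x : ℂ × E => x.1 • x.2) (contDiff_fst.smul contDiff_snd).contDiffOn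
    (fun _ _ => trivial)
  refine h4.congr (fun _ _ => rfl) fun z _ => ?_
  have h5 : HasFDerivAt (fun x : ℂ × E => x.1 • x.2)
      (f z • (ContinuousLinearMap.snd ℂ ℂ E) + (ContinuousLinearMap.fst ℂ ℂ E).smulRight (v z))
      (f z, v z) := by
    have := (hasFDerivAt_fst (𝕜 := ℂ) (p := (f z, v z))).smul
      (hasFDerivAt_snd (𝕜 := ℂ) (p := (f z, v z)))
    exact this
  simp only
  rw [h5.fderiv]
  simp [add_comm]

theorem WDb.mul (hΩ : IsOpen Ω) {f f' g g' : ℂ → ℂ} (hf : ContinuousOn f Ω)
    (hf' : ContinuousOn f' Ω) (hg : ContinuousOn g Ω) (hg' : ContinuousOn g' Ω)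
    (h1 : WDb Ω f f') (h2 : WDb Ω g g') :
    WDb Ω (fun z => f z * g z) fun z => f' z * g z + f z * g' z :=
  WDb.smul hΩ hf hf' hg hg' h1 h2

/-- product rule for operators applied to vectors -/
theorem WDb.clm_apply [CompleteSpace E] [CompleteSpace F] (hΩ : IsOpen Ω)
    {B B' : ℂ → E →L[ℂ] F} (hB : ContinuousOn B Ω) (hB' : ContinuousOn B' Ω)
    (hv : ContinuousOn v Ω) (hq : ContinuousOn q Ω) (h1 : WDb Ω B B') (h2 : WDb Ω v q) :
    WDb Ω (fun z => B z (v z)) fun z => B' z (v z) + B z (q z) := by
  have h3 := WDb.prodMk hΩ hB hB' hv hq h1 h2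
  have h4 := h3.comp_holo hΩ (hB.prodMk hv) (hB'.prodMk hq) (W := univ) isOpen_univ
    (Φ := fun x : (E →L[ℂ] F) × E => x.1 x.2) (contDiff_fst.clm_apply contDiff_snd).contDiffOn
    (fun _ _ => trivial)
  refine h4.congr (fun _ _ => rfl) fun z _ => ?_
  have h5 := (hasFDerivAt_fst (𝕜 := ℂ) (p := (B z, v z))).clm_apply
      (hasFDerivAt_snd (𝕜 := ℂ) (p := (B z, v z)))
  simp only
  rw [h5.fderiv]
  simp [add_comm]

/-- product rule for matrices applied to vectors, entrywise -/
theorem WDb.mulVec (hΩ : IsOpen Ω) {m n : Type*} [Fintype m] [Fintype n]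
    {A A' : ℂ → Matrix m n ℂ} {u u' : ℂ → n → ℂ}
    (hA : ∀ i j, ContinuousOn (fun z => A z i j) Ω) (hA' : ∀ i j, ContinuousOn (fun z => A' z i j) Ω)
    (hu : ∀ j, ContinuousOn (fun z => u z j) Ω) (hu' : ∀ j, ContinuousOn (fun z => u' z j) Ω)
    (h1 : ∀ i j, WDb Ω (fun z => A z i j) fun z => A' z i j)
    (h2 : ∀ j, WDb Ω (fun z => u z j) fun z => u' z j) (i : m) :
    WDb Ω (fun z => (A z).mulVec (u z) i)
      fun z => (A' z).mulVec (u z) i + (A z).mulVec (u' z) i := by
  have h := WDb.sum hΩ (Finset.univ : Finset n) (v := fun j z => A z i j * u z j)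
    (q := fun j z => A' z i j * u z j + A z i j * u' z j)
    (fun j _ => (hA i j).mul (hu j)) (fun j _ => ((hA' i j).mul (hu j)).add ((hA i j).mul (hu' j)))
    (fun j _ => WDb.mul hΩ (hA i j) (hA' i j) (hu j) (hu' j) (h1 i j) (h2 j))
  refine h.congr (fun z _ => rfl) fun z _ => ?_
  simp only [Matrix.mulVec, dotProduct, Finset.sum_add_distrib]

/-- product rule for matrices, entrywise -/
theorem WDb.matMul (hΩ : IsOpen Ω) {l m n : Type*} [Fintype m]
    {A A' : ℂ → Matrix l m ℂ} {B B' : ℂ → Matrix m n ℂ}
    (hA : ∀ i j, ContinuousOn (fun z => A z i j) Ω) (hA' : ∀ i j, ContinuousOn (fun z => A' z i j) Ω)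
    (hB : ∀ i j, ContinuousOn (fun z => B z i j) Ω) (hB' : ∀ i j, ContinuousOn (fun z => B' z i j) Ω)
    (h1 : ∀ i j, WDb Ω (fun z => A z i j) fun z => A' z i j)
    (h2 : ∀ i j, WDb Ω (fun z => B z i j) fun z => B' z i j) (i : l) (k : n) :
    WDb Ω (fun z => (A z * B z) i k) fun z => (A' z * B z + A z * B' z) i k := by
  have h := WDb.sum hΩ (Finset.univ : Finset m) (v := fun j z => A z i j * B z j k)
    (q := fun j z => A' z i j * B z j k + A z i j * B' z j k)
    (fun j _ => (hA i j).mul (hB j k))
    (fun j _ => ((hA' i j).mul (hB j k)).add ((hA i j).mul (hB' j k)))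
    (fun j _ => WDb.mul hΩ (hA i j) (hA' i j) (hB j k) (hB' j k) (h1 i j) (h2 j k))
  refine h.congr (fun z _ => by simp [Matrix.mul_apply]) fun z _ => ?_
  simp only [Matrix.add_apply, Matrix.mul_apply, Finset.sum_add_distrib]

end

end Vale.Agent.P272.CT
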