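import Vale.Agent.P272.CT.Kernel

/-!
# The Cauchy transform on the unit disc with weights `(1-|w|)^(-α)`

`cauT F z = (1/π) ∫_{|w|<1} (z-w)⁻¹ F(w) dA(w)`.
-/

open MeasureTheory Set Metric Filter Topology
open scoped ENNReal NNReal

set_option linter.unusedSectionVars false

namespace Vale.Agent.P272.CT

variable {E : Type*} [NormedAddCommGroup E] [NormedSpace ℂ E]

/-- the Cauchy transform over the unit disc, normalised so that `dbar (cauT F) = F` -/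
noncomputable def cauT (F : ℂ → E) (z : ℂ) : E :=
  ((Real.pi : ℝ) : ℂ)⁻¹ • ∫ w in ball (0 : ℂ) 1, (z - w)⁻¹ • F w

/-- weighted bound: `F` is measurable on the disc and `‖F w‖ ≤ A (1-|w|)^(-α)` there -/
def WB (α A : ℝ) (F : ℂ → E) : Prop :=
  AEStronglyMeasurable F (volume.restrict (ball (0 : ℂ) 1)) ∧
    ∀ w ∈ ball (0 : ℂ) 1, ‖F w‖ ≤ A * (1 - ‖w‖) ^ (-α)

/-- the constant of the weighted kernel -/
noncomputable def cst (α β : ℝ) : ℝ :=
  (kerC α (β - 1 + (2 - α - β) / 2) (1 - (2 - α - β) / 2)).toReal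

theorem cst_nonneg (α β : ℝ) : 0 ≤ cst α β := ENNReal.toReal_nonneg

/-- (C1) THE KERNEL BOUND, in `ℝ≥0∞` -/
theorem lint_kernel_le {α β : ℝ} (hα : 0 ≤ α) (hβ : 1 ≤ β) (h : α + β < 2) (z : ℂ) :
    ∫⁻ w in ball (0 : ℂ) 1, ENNReal.ofReal ((1 - ‖w‖) ^ (-α) * ‖z - w‖ ^ (-β)) ≤
      ENNReal.ofReal (cst α β) := by
  have h1 := lint_ker_le (α := α) (a := β - 1 + (2 - α - β) / 2) (b := 1 - (2 - α - β) / 2)
    hα (by linarith) (by linarith) (by linarith) z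
  have h2 : β - 1 + (2 - α - β) / 2 + (1 - (2 - α - β) / 2) = β := by ring
  rw [h2] at h1
  have h3 : kerC α (β - 1 + (2 - α - β) / 2) (1 - (2 - α - β) / 2) < ⊤ :=
    kerC_lt_top (by linarith) (by linarith)
  rw [cst, ENNReal.ofReal_toReal h3.ne]
  refine le_trans (le_of_eq ?_) h1
  rw [← lintegral_indicator measurableSet_ball]
  rfl

/-- Bochner form of the kernel bound -/
theorem integrableOn_kernel {α β : ℝ} (hα : 0 ≤ α) (hβ : 1 ≤ β) (h : α + β < 2) (z : ℂ) :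
    IntegrableOn (fun w : ℂ => (1 - ‖w‖) ^ (-α) * ‖z - w‖ ^ (-β)) (ball (0 : ℂ) 1) := by
  refine ⟨(by fun_prop : Measurable (fun w : ℂ => (1 - ‖w‖) ^ (-α) *
    ‖z - w‖ ^ (-β))).aestronglyMeasurable, ?_⟩
  rw [hasFiniteIntegral_iff_ofReal]
  · exact (lint_kernel_le hα hβ h z).trans_lt ENNReal.ofReal_lt_top
  · filter_upwards [ae_restrict_mem measurableSet_ball] with w hw
    rw [mem_ball_zero_iff] at hw
    have : 0 ≤ 1 - ‖w‖ := by linarith
    simp only [Pi.zero_apply]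
    positivity

theorem integral_kernel_le {α β : ℝ} (hα : 0 ≤ α) (hβ : 1 ≤ β) (h : α + β < 2) (z : ℂ) :
    ∫ w in ball (0 : ℂ) 1, (1 - ‖w‖) ^ (-α) * ‖z - w‖ ^ (-β) ≤ cst α β := by
  have hnn : ∀ᵐ w : ℂ ∂(volume.restrict (ball (0 : ℂ) 1)),
      0 ≤ (1 - ‖w‖) ^ (-α) * ‖z - w‖ ^ (-β) := by
    filter_upwards [ae_restrict_mem measurableSet_ball] with w hw
    rw [mem_ball_zero_iff] at hw
    have : 0 ≤ 1 - ‖w‖ := by linarith
    positivity
  rw [integral_eq_lintegral_of_nonneg_ae hnn (integrableOn_kernel hα hβ h z).1]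
  exact ENNReal.toReal_le_of_le_ofReal (cst_nonneg _ _) (lint_kernel_le hα hβ h z)

namespace WB

variable {α A : ℝ} {F G : ℂ → E}

theorem nonneg (hF : WB α A F) : 0 ≤ A := by
  have := hF.2 0 (mem_ball_self one_pos)
  simp only [norm_zero, sub_zero, Real.one_rpow, mul_one] at this
  exact (norm_nonneg _).trans this

/-- a bounded function satisfies every weighted bound -/
theorem of_bdd (hα : 0 ≤ α) (hm : AEStronglyMeasurable F (volume.restrict (ball (0 : ℂ) 1)))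
    (hb : ∀ w ∈ ball (0 : ℂ) 1, ‖F w‖ ≤ A) : WB α A F := by
  refine ⟨hm, fun w hw => (hb w hw).trans ?_⟩
  have hA : 0 ≤ A := (norm_nonneg _).trans (hb w hw)
  rw [mem_ball_zero_iff] at hw
  have h1 : 1 ≤ (1 - ‖w‖) ^ (-α) :=
    Real.one_le_rpow_of_pos_of_le_one_of_nonpos (by linarith) (by linarith [norm_nonneg w])
      (by linarith)
  nlinarith

theorem of_continuousOn (hα : 0 ≤ α) (hc : ContinuousOn F (ball (0 : ℂ) 1))
    (hb : ∀ w ∈ ball (0 : ℂ) 1, ‖F w‖ ≤ A) : WB α A F :=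
  of_bdd hα (hc.aestronglyMeasurable measurableSet_ball) hb

theorem mono {B : ℝ} (hF : WB α A F) (hAB : A ≤ B) : WB α B F := by
  refine ⟨hF.1, fun w hw => (hF.2 w hw).trans ?_⟩
  rw [mem_ball_zero_iff] at hw
  have : 0 ≤ 1 - ‖w‖ := by linarith
  gcongr

theorem add {B : ℝ} (hF : WB α A F) (hG : WB α B G) : WB α (A + B) (fun w => F w + G w) := by
  refine ⟨hF.1.add hG.1, fun w hw => ?_⟩
  rw [add_mul]
  exact (norm_add_le _ _).trans (add_le_add (hF.2 w hw) (hG.2 w hw))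

theorem sub {B : ℝ} (hF : WB α A F) (hG : WB α B G) : WB α (A + B) (fun w => F w - G w) := by
  refine ⟨hF.1.sub hG.1, fun w hw => ?_⟩
  rw [add_mul]
  exact (norm_sub_le _ _).trans (add_le_add (hF.2 w hw) (hG.2 w hw))

theorem smul (c : ℂ) (hF : WB α A F) : WB α (‖c‖ * A) (fun w => c • F w) := by
  refine ⟨hF.1.const_smul c, fun w hw => ?_⟩
  rw [norm_smul, mul_assoc]
  exact mul_le_mul_of_nonneg_left (hF.2 w hw) (norm_nonneg _)

/-- a function vanishing near the centre satisfies a small bound with a worse weight -/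
theorem tail {ρ h : ℝ} (hh : 0 ≤ h) (hF : WB α A F) (hρ : ρ ≤ 1)
    (h0 : ∀ w, ‖w‖ < ρ → F w = 0) : WB (α + h) (A * (1 - ρ) ^ h) F := by
  refine ⟨hF.1, fun w hw => ?_⟩
  have hA := hF.nonneg
  by_cases hwρ : ‖w‖ < ρ
  · rw [h0 w hwρ, norm_zero]
    rw [mem_ball_zero_iff] at hw
    have : 0 ≤ 1 - ‖w‖ := by linarith
    have : 0 ≤ 1 - ρ := by linarith
    positivity
  · refine (hF.2 w hw).trans ?_
    rw [mem_ball_zero_iff] at hw
    push Not at hwρ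
    have h1 : 0 < 1 - ‖w‖ := by linarith
    have h2 : (1 - ‖w‖) ^ (-α) = (1 - ‖w‖) ^ h * (1 - ‖w‖) ^ (-(α + h)) := by
      rw [← Real.rpow_add h1]; congr 1; ring
    rw [h2, mul_assoc]
    have h3 : (1 - ‖w‖) ^ h ≤ (1 - ρ) ^ h := by
      apply Real.rpow_le_rpow h1.le (by linarith) hh
    gcongr

theorem integrableOn_ker (hα : 0 ≤ α) (hα1 : α < 1) (hF : WB α A F) (z : ℂ) :
    IntegrableOn (fun w => (z - w)⁻¹ • F w) (ball (0 : ℂ) 1) := by
  have h1 := (integrableOn_kernel hα le_rfl (by linarith : α + 1 < 2) z).const_mul A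
  refine Integrable.mono' h1 ?_ ?_
  · refine AEStronglyMeasurable.smul ?_ hF.1
    exact (by fun_prop : Measurable (fun w : ℂ => (z - w)⁻¹)).aestronglyMeasurable
  · filter_upwards [ae_restrict_mem measurableSet_ball] with w hw
    rw [norm_smul, norm_inv, Real.rpow_neg_one]
    calc ‖z - w‖⁻¹ * ‖F w‖ ≤ ‖z - w‖⁻¹ * (A * (1 - ‖w‖) ^ (-α)) := by
          gcongr
          exact hF.2 w hw
      _ = A * ((1 - ‖w‖) ^ (-α) * ‖z - w‖⁻¹) := by ring

theorem integrableOn (hα : 0 ≤ α) (hα1 : α < 1) (hF : WB α A F) :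
    IntegrableOn F (ball (0 : ℂ) 1) := by
  -- compare with the kernel at `z = 0`: `1 ≤ ‖0 - w‖⁻¹` on the disc
  have h1 := (integrableOn_kernel hα le_rfl (by linarith : α + 1 < 2) 0).const_mul A
  refine Integrable.mono' h1 hF.1 ?_
  have hne : ∀ᵐ w : ℂ ∂(volume.restrict (ball (0 : ℂ) 1)), w ≠ 0 := by
    refine ae_restrict_of_ae ?_
    rw [ae_iff]; simp
  filter_upwards [ae_restrict_mem measurableSet_ball, hne] with w hw hw0
  have h2 := hF.2 w hw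
  have hA := hF.nonneg
  rw [mem_ball_zero_iff] at hw
  have h3 : 0 ≤ (1 - ‖w‖) ^ (-α) := Real.rpow_nonneg (by linarith) _
  have h4 : 1 ≤ ‖(0 : ℂ) - w‖⁻¹ := by
    rw [zero_sub, norm_neg]
    exact (one_le_inv₀ (norm_pos_iff.2 hw0)).2 hw.le
  rw [Real.rpow_neg_one]
  calc ‖F w‖ ≤ A * ((1 - ‖w‖) ^ (-α) * 1) := by rw [mul_one]; exact h2
    _ ≤ A * ((1 - ‖w‖) ^ (-α) * ‖(0 : ℂ) - w‖⁻¹) := by gcongr

/-- (C2) SUP BOUND -/
theorem norm_cauT_le (hα : 0 ≤ α) (hα1 : α < 1) (hF : WB α A F) (z : ℂ) :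
    ‖cauT F z‖ ≤ cst α 1 / Real.pi * A := by
  have hpi := Real.pi_pos
  have h1 : ‖∫ w in ball (0 : ℂ) 1, (z - w)⁻¹ • F w‖ ≤ A * cst α 1 := by
    calc ‖∫ w in ball (0 : ℂ) 1, (z - w)⁻¹ • F w‖
        ≤ ∫ w in ball (0 : ℂ) 1, A * ((1 - ‖w‖) ^ (-α) * ‖z - w‖ ^ (-(1 : ℝ))) := by
          refine norm_integral_le_of_norm_le
            ((integrableOn_kernel hα le_rfl (by linarith : α + 1 < 2) z).const_mul A) ?_
          filter_upwards [ae_restrict_mem measurableSet_ball] with w hw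
          rw [norm_smul, norm_inv, Real.rpow_neg_one]
          calc ‖z - w‖⁻¹ * ‖F w‖ ≤ ‖z - w‖⁻¹ * (A * (1 - ‖w‖) ^ (-α)) := by
                gcongr
                exact hF.2 w hw
            _ = A * ((1 - ‖w‖) ^ (-α) * ‖z - w‖⁻¹) := by ring
      _ = A * ∫ w in ball (0 : ℂ) 1, (1 - ‖w‖) ^ (-α) * ‖z - w‖ ^ (-(1 : ℝ)) := by
          rw [integral_const_mul]
      _ ≤ A * cst α 1 := by
          have := integral_kernel_le hα le_rfl (by linarith : α + 1 < 2) z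
          exact mul_le_mul_of_nonneg_left this hF.nonneg
  rw [cauT, norm_smul, norm_inv, Complex.norm_real, Real.norm_eq_abs, abs_of_pos hpi]
  calc Real.pi⁻¹ * ‖∫ w in ball (0 : ℂ) 1, (z - w)⁻¹ • F w‖ ≤ Real.pi⁻¹ * (A * cst α 1) := by
        gcongr
    _ = _ := by field_simp

/-- smallness for functions living near the unit circle -/
theorem norm_cauT_le_tail {ρ h : ℝ} (hα : 0 ≤ α) (hh : 0 ≤ h) (hαh : α + h < 1) (hρ : ρ ≤ 1)
    (hF : WB α A F) (h0 : ∀ w, ‖w‖ < ρ → F w = 0) (z : ℂ) :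
    ‖cauT F z‖ ≤ cst (α + h) 1 / Real.pi * (A * (1 - ρ) ^ h) :=
  (hF.tail hh hρ h0).norm_cauT_le (by linarith) hαh z

end WB

/-- pointwise Hölder estimate of the kernel -/
theorem inv_sub_inv_le {u v : ℂ} (hu : u ≠ 0) (hv : v ≠ 0) {h : ℝ} (hh : 0 ≤ h) (hh1 : h ≤ 1) :
    ‖u⁻¹ - v⁻¹‖ ≤ 2 * ‖u - v‖ ^ h * (‖u‖ ^ (-(1 + h)) + ‖v‖ ^ (-(1 + h))) := by
  have hu' : 0 < ‖u‖ := norm_pos_iff.2 hu
  have hv' : 0 < ‖v‖ := norm_pos_iff.2 hv
  rcases eq_or_ne u v with rfl | huv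
  · simp only [sub_self, norm_zero]
    positivity
  have hd : 0 < ‖u - v‖ := norm_pos_iff.2 (sub_ne_zero.2 huv)
  have h1 : ‖u⁻¹ - v⁻¹‖ = ‖u - v‖ * (‖u‖⁻¹ * ‖v‖⁻¹) := by
    rw [inv_sub_inv hu hv, norm_div, norm_mul, norm_sub_rev, div_eq_mul_inv, mul_inv]
  have h2 : ‖u - v‖ = ‖u - v‖ ^ h * ‖u - v‖ ^ (1 - h) := by
    rw [← Real.rpow_add hd]; simp
  -- `‖u-v‖^(1-h) ≤ ‖u‖^(1-h) + ‖v‖^(1-h)`
  have h3 : ‖u - v‖ ^ (1 - h) ≤ ‖u‖ ^ (1 - h) + ‖v‖ ^ (1 - h) := by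
    calc ‖u - v‖ ^ (1 - h) ≤ (‖u‖ + ‖v‖) ^ (1 - h) :=
          Real.rpow_le_rpow (norm_nonneg _) (norm_sub_le _ _) (by linarith)
      _ ≤ _ := Real.rpow_add_le_add_rpow (norm_nonneg _) (norm_nonneg _) (by linarith)
          (by linarith)
  have h4 : ∀ x : ℝ, 0 < x → x ^ (1 - h) * x⁻¹ = x ^ (-h) := by
    intro x hx
    rw [← Real.rpow_neg_one, ← Real.rpow_add hx]; congr 1; ring
  have h5 : ‖u‖ ^ (-h) * ‖v‖⁻¹ ≤ ‖u‖ ^ (-(1 + h)) + ‖v‖ ^ (-(1 + h)) := by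
    have := rpow_split hu' hv' hh zero_le_one
    rw [Real.rpow_neg_one] at this
    rwa [add_comm h 1] at this
  have h6 : ‖u‖⁻¹ * ‖v‖ ^ (-h) ≤ ‖u‖ ^ (-(1 + h)) + ‖v‖ ^ (-(1 + h)) := by
    have := rpow_split hu' hv' zero_le_one hh
    rwa [Real.rpow_neg_one] at this
  rw [h1]
  calc ‖u - v‖ * (‖u‖⁻¹ * ‖v‖⁻¹) = ‖u - v‖ ^ h * (‖u - v‖ ^ (1 - h) * (‖u‖⁻¹ * ‖v‖⁻¹)) := by
        conv_lhs => rw [h2]
        ring
    _ ≤ ‖u - v‖ ^ h * ((‖u‖ ^ (1 - h) + ‖v‖ ^ (1 - h)) * (‖u‖⁻¹ * ‖v‖⁻¹)) := by gcongr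
    _ = ‖u - v‖ ^ h * ((‖u‖ ^ (1 - h) * ‖u‖⁻¹) * ‖v‖⁻¹ + ‖u‖⁻¹ * (‖v‖ ^ (1 - h) * ‖v‖⁻¹)) := by
        ring
    _ = ‖u - v‖ ^ h * (‖u‖ ^ (-h) * ‖v‖⁻¹ + ‖u‖⁻¹ * ‖v‖ ^ (-h)) := by
        rw [h4 _ hu', h4 _ hv']
    _ ≤ ‖u - v‖ ^ h * ((‖u‖ ^ (-(1 + h)) + ‖v‖ ^ (-(1 + h))) +
          (‖u‖ ^ (-(1 + h)) + ‖v‖ ^ (-(1 + h)))) := by gcongr
    _ = _ := by ring

namespace WB

variable {α A : ℝ} {F G : ℂ → E}

/-- (C2) HÖLDER CONTINUITY, with every exponent `h < 1 - α`, uniform in `F` -/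
theorem cauT_holder {h : ℝ} (hα : 0 ≤ α) (hh : 0 ≤ h) (hαh : α + h < 1) (hF : WB α A F)
    (z z' : ℂ) :
    ‖cauT F z - cauT F z'‖ ≤ 4 * cst α (1 + h) / Real.pi * A * ‖z - z'‖ ^ h := by
  have hpi := Real.pi_pos
  have hα1 : α < 1 := by linarith
  have hI := hF.integrableOn_ker hα hα1 z
  have hI' := hF.integrableOn_ker hα hα1 z'
  have hK := integrableOn_kernel hα (by linarith : (1 : ℝ) ≤ 1 + h) (by linarith) z
  have hK' := integrableOn_kernel hα (by linarith : (1 : ℝ) ≤ 1 + h) (by linarith) z'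
  have h1 : cauT F z - cauT F z' = ((Real.pi : ℝ) : ℂ)⁻¹ •
      ∫ w in ball (0 : ℂ) 1, ((z - w)⁻¹ - (z' - w)⁻¹) • F w := by
    rw [cauT, cauT, ← smul_sub, ← integral_sub hI hI']
    congr 1
    refine integral_congr_ae (Eventually.of_forall fun w => ?_)
    simp only
    rw [sub_smul]
  have hne : ∀ x : ℂ, ∀ᵐ w : ℂ ∂(volume.restrict (ball (0 : ℂ) 1)), w ≠ x := by
    intro x
    refine ae_restrict_of_ae ?_
    rw [ae_iff]; simp
  have h2 : ‖∫ w in ball (0 : ℂ) 1, ((z - w)⁻¹ - (z' - w)⁻¹) • F w‖ ≤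
      2 * ‖z - z'‖ ^ h * A * (cst α (1 + h) + cst α (1 + h)) := by
    calc ‖∫ w in ball (0 : ℂ) 1, ((z - w)⁻¹ - (z' - w)⁻¹) • F w‖
        ≤ ∫ w in ball (0 : ℂ) 1, 2 * ‖z - z'‖ ^ h * A *
            ((1 - ‖w‖) ^ (-α) * ‖z - w‖ ^ (-(1 + h)) +
              (1 - ‖w‖) ^ (-α) * ‖z' - w‖ ^ (-(1 + h))) := by
          refine norm_integral_le_of_norm_le ((hK.add hK').const_mul _) ?_
          filter_upwards [ae_restrict_mem measurableSet_ball, hne z, hne z'] with w hw hwz hwz'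
          have e1 := inv_sub_inv_le (sub_ne_zero.2 (Ne.symm hwz)) (sub_ne_zero.2 (Ne.symm hwz'))
            hh (by linarith)
          rw [sub_sub_sub_cancel_right] at e1
          have e2 := hF.2 w hw
          rw [norm_smul]
          calc ‖(z - w)⁻¹ - (z' - w)⁻¹‖ * ‖F w‖
              ≤ (2 * ‖z - z'‖ ^ h * (‖z - w‖ ^ (-(1 + h)) + ‖z' - w‖ ^ (-(1 + h)))) *
                (A * (1 - ‖w‖) ^ (-α)) := by gcongr
            _ = _ := by ring
      _ = 2 * ‖z - z'‖ ^ h * A * ((∫ w in ball (0 : ℂ) 1, (1 - ‖w‖) ^ (-α) *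
            ‖z - w‖ ^ (-(1 + h))) + ∫ w in ball (0 : ℂ) 1, (1 - ‖w‖) ^ (-α) *
            ‖z' - w‖ ^ (-(1 + h))) := by
          rw [integral_const_mul, integral_add hK hK']
      _ ≤ _ := by
          have hA := hF.nonneg
          have g1 := integral_kernel_le hα (by linarith : (1 : ℝ) ≤ 1 + h) (by linarith) z
          have g2 := integral_kernel_le hα (by linarith : (1 : ℝ) ≤ 1 + h) (by linarith) z'
          gcongr
  rw [h1, norm_smul, norm_inv, Complex.norm_real, Real.norm_eq_abs, abs_of_pos hpi]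
  calc Real.pi⁻¹ * ‖∫ w in ball (0 : ℂ) 1, ((z - w)⁻¹ - (z' - w)⁻¹) • F w‖
      ≤ Real.pi⁻¹ * (2 * ‖z - z'‖ ^ h * A * (cst α (1 + h) + cst α (1 + h))) := by gcongr
    _ = _ := by field_simp; ring

/-- (C2) CONTINUITY on all of `ℂ` -/
theorem continuous_cauT (hα : 0 ≤ α) (hα1 : α < 1) (hF : WB α A F) : Continuous (cauT F) := by
  have hh : 0 < (1 - α) / 2 := by linarith
  rw [continuous_iff_continuousAt]
  intro z
  rw [ContinuousAt, tendsto_iff_norm_sub_tendsto_zero]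
  have h1 : ∀ z', ‖cauT F z' - cauT F z‖ ≤
      4 * cst α (1 + (1 - α) / 2) / Real.pi * A * ‖z' - z‖ ^ ((1 - α) / 2) :=
    fun z' => hF.cauT_holder hα hh.le (by linarith) z' z
  have h2 : Tendsto (fun z' : ℂ => 4 * cst α (1 + (1 - α) / 2) / Real.pi * A *
      ‖z' - z‖ ^ ((1 - α) / 2)) (𝓝 z) (𝓝 0) := by
    have h3 : Continuous (fun z' : ℂ => 4 * cst α (1 + (1 - α) / 2) / Real.pi * A *
      ‖z' - z‖ ^ ((1 - α) / 2)) := by
      refine continuous_const.mul (Continuous.rpow_const (by fun_prop) fun _ => Or.inr hh.le)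
    have h4 := h3.tendsto z
    simpa [Real.zero_rpow hh.ne'] using h4
  exact squeeze_zero (fun _ => norm_nonneg _) h1 h2

theorem cauT_add {B : ℝ} (hα : 0 ≤ α) (hα1 : α < 1) (hF : WB α A F) (hG : WB α B G) (z : ℂ) :
    cauT (fun w => F w + G w) z = cauT F z + cauT G z := by
  rw [cauT, cauT, cauT, ← smul_add,
    ← integral_add (hF.integrableOn_ker hα hα1 z) (hG.integrableOn_ker hα hα1 z)]
  simp only [smul_add]

theorem cauT_sub {B : ℝ} (hα : 0 ≤ α) (hα1 : α < 1) (hF : WB α A F) (hG : WB α B G) (z : ℂ) :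
    cauT (fun w => F w - G w) z = cauT F z - cauT G z := by
  rw [cauT, cauT, cauT, ← smul_sub,
    ← integral_sub (hF.integrableOn_ker hα hα1 z) (hG.integrableOn_ker hα hα1 z)]
  simp only [smul_sub]

end WB

theorem cauT_smul (c : ℂ) (F : ℂ → E) (z : ℂ) : cauT (fun w => c • F w) z = c • cauT F z := by
  rw [cauT, cauT, smul_comm c, ← integral_smul c]
  congr 2
  ext w
  rw [smul_comm]

theorem cauT_zero (z : ℂ) : cauT (fun _ => (0 : E)) z = 0 := by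
  simp [cauT]

theorem cauT_congr {F G : ℂ → E} (h : ∀ w ∈ ball (0 : ℂ) 1, F w = G w) : cauT F = cauT G := by
  ext z
  rw [cauT, cauT]
  congr 1
  exact setIntegral_congr_fun measurableSet_ball fun w hw => by simp only [h w hw]

theorem cauT_clm {E' : Type*} [NormedAddCommGroup E'] [NormedSpace ℂ E'] [CompleteSpace E]
    [CompleteSpace E'] (L : E →L[ℂ] E') {α A : ℝ} {F : ℂ → E} (hα : 0 ≤ α) (hα1 : α < 1)
    (hF : WB α A F) (z : ℂ) : cauT (fun w => L (F w)) z = L (cauT F z) := by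
  rw [cauT, cauT, map_smul, ← L.integral_comp_comm (hF.integrableOn_ker hα hα1 z)]
  congr 2
  ext w
  rw [map_smul]

/-- uniform convergence: if `F k → G` uniformly on every smaller disc, with a common weighted
bound, then `cauT (F k) → cauT G` uniformly on `ℂ`. -/
theorem tendsto_cauT {α A : ℝ} (hα : 0 ≤ α) (hα1 : α < 1) {F : ℕ → ℂ → E} {G : ℂ → E}
    (hF : ∀ k, WB α A (F k)) (hG : WB α A G)
    (hc : ∀ ρ < 1, TendstoUniformlyOn F G atTop (ball (0 : ℂ) ρ)) :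
    TendstoUniformly (fun k => cauT (F k)) (cauT G) atTop := by
  rw [Metric.tendstoUniformly_iff]
  intro ε hε
  have hA := hG.nonneg
  set h := (1 - α) / 2 with hh
  have hh0 : 0 < h := by rw [hh]; linarith
  -- choose ρ
  have hlim : Tendsto (fun ρ : ℝ => cst (α + h) 1 / Real.pi * (2 * A * (1 - ρ) ^ h)) (𝓝 1)
      (𝓝 0) := by
    have h3 : Continuous (fun ρ : ℝ => cst (α + h) 1 / Real.pi * (2 * A * (1 - ρ) ^ h)) := by
      refine continuous_const.mul (continuous_const.mul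
        (Continuous.rpow_const (by fun_prop) fun _ => Or.inr hh0.le))
    have h4 := h3.tendsto 1
    simpa [Real.zero_rpow hh0.ne'] using h4
  have hev := hlim.eventually (gt_mem_nhds (half_pos hε))
  obtain ⟨ρ, hρ, hρ1, hρ0⟩ : ∃ ρ : ℝ, cst (α + h) 1 / Real.pi * (2 * A * (1 - ρ) ^ h) < ε / 2 ∧
      ρ < 1 ∧ 0 < ρ := by
    have h5 : ∀ᶠ ρ in 𝓝[<] (1 : ℝ), cst (α + h) 1 / Real.pi * (2 * A * (1 - ρ) ^ h) < ε / 2 :=
      hev.filter_mono nhdsWithin_le_nhds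
    have h6 : ∀ᶠ ρ in 𝓝[<] (1 : ℝ), ρ < 1 := eventually_mem_nhdsWithin
    have h7 : ∀ᶠ ρ in 𝓝[<] (1 : ℝ), 0 < ρ :=
      (lt_mem_nhds (zero_lt_one' ℝ)).filter_mono nhdsWithin_le_nhds
    exact (h5.and (h6.and h7)).exists
  have hc' := (Metric.tendstoUniformlyOn_iff.1 (hc ρ hρ1)) (ε / 4 / (cst α 1 / Real.pi + 1))
    (by
      have := cst_nonneg α 1
      have := Real.pi_pos
      positivity)
  filter_upwards [hc'] with k hk z
  set η := ε / 4 / (cst α 1 / Real.pi + 1) with hη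
  have hc0 := cst_nonneg α 1
  have hpi := Real.pi_pos
  have hη0 : 0 < η := by positivity
  -- split the difference
  set D1 : ℂ → E := (ball (0 : ℂ) ρ).indicator (fun w => G w - F k w) with hD1
  set D2 : ℂ → E := (ball (0 : ℂ) ρ)ᶜ.indicator (fun w => G w - F k w) with hD2
  have hm : AEStronglyMeasurable (fun w => G w - F k w) (volume.restrict (ball (0 : ℂ) 1)) :=
    hG.1.sub (hF k).1
  have hW1 : WB α η D1 := by
    refine WB.of_bdd hα (hm.indicator measurableSet_ball) fun w _ => ?_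
    rw [hD1]
    by_cases hw : w ∈ ball (0 : ℂ) ρ
    · rw [indicator_of_mem hw, ← dist_eq_norm]
      exact (hk w hw).le
    · rw [indicator_of_notMem hw, norm_zero]
      exact hη0.le
  have hW2 : WB α (2 * A) D2 := by
    refine ⟨hm.indicator measurableSet_ball.compl, fun w hw => ?_⟩
    have h8 := (hG.sub (hF k)).2 w hw
    rw [← two_mul] at h8
    refine (norm_indicator_le_norm_self _ _).trans h8
  have hz2 : ∀ w, ‖w‖ < ρ → D2 w = 0 := by
    intro w hw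
    rw [hD2]
    exact indicator_of_notMem (by simpa using hw) _
  have hsum : cauT G z - cauT (F k) z = cauT D1 z + cauT D2 z := by
    rw [← WB.cauT_sub hα hα1 hG (hF k), ← WB.cauT_add hα hα1 hW1 hW2]
    congr 1
    ext w
    rw [hD1, hD2]
    exact (indicator_self_add_compl_apply (ball (0 : ℂ) ρ) (fun w => G w - F k w) w).symm
  rw [dist_eq_norm, hsum]
  have hb1 := hW1.norm_cauT_le hα hα1 z
  have hb2 := hW2.norm_cauT_le_tail hα hh0.le (by rw [hh]; linarith) hρ1.le hz2 z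
  have hb3 : cst α 1 / Real.pi * η ≤ ε / 4 := by
    rw [hη]
    have : cst α 1 / Real.pi * (ε / 4 / (cst α 1 / Real.pi + 1)) =
      (cst α 1 / Real.pi) / (cst α 1 / Real.pi + 1) * (ε / 4) := by ring
    rw [this]
    have h9 : (cst α 1 / Real.pi) / (cst α 1 / Real.pi + 1) ≤ 1 := by
      rw [div_le_one (by positivity)]
      linarith
    have : 0 ≤ ε / 4 := by positivity
    nlinarith
  calc ‖cauT D1 z + cauT D2 z‖ ≤ ‖cauT D1 z‖ + ‖cauT D2 z‖ := norm_add_le _ _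
    _ < ε := by linarith

end Vale.Agent.P272.CT
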