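import Mathlib

/-!
# The weighted Cauchy kernel on the unit disc

`∫_{|w|<1} (1-|w|)^(-α) |z-w|^(-(a+b)) dA(w)` is bounded uniformly in `z ∈ ℂ` when
`0 ≤ b < 1`, `0 ≤ a`, `0 ≤ α` and `α + a < 1`.
-/

open MeasureTheory Set Metric Filter Topology
open scoped ENNReal NNReal

namespace Vale.Agent.P272.CT

/-- one-dimensional fact: `|x|^(-γ)` is integrable near `0` for `γ < 1` -/
theorem integrableOn_abs_rpow {γ : ℝ} (hγ : γ < 1) (R : ℝ) :
    IntegrableOn (fun x : ℝ => |x| ^ (-γ)) (Ioo (-R) R) := by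
  set S := max R 0 with hS
  have hS0 : 0 ≤ S := le_max_right _ _
  have h3 : IntervalIntegrable (fun x : ℝ => x ^ (-γ)) volume 0 S :=
    intervalIntegral.intervalIntegrable_rpow' (by linarith)
  have h4 : IntervalIntegrable (fun x : ℝ => |x| ^ (-γ)) volume 0 S := by
    rw [intervalIntegrable_iff_integrableOn_Ioc_of_le hS0] at h3 ⊢
    refine h3.congr_fun (fun x hx => ?_) measurableSet_Ioc
    simp only
    rw [abs_of_pos hx.1]
  have h5 : IntervalIntegrable (fun x : ℝ => |x| ^ (-γ)) volume 0 (-S) := by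
    have := h4
    rw [IntervalIntegrable.iff_comp_neg] at this
    simpa using this
  have h6 := h5.symm.trans h4
  rw [intervalIntegrable_iff_integrableOn_Ioc_of_le (by linarith)] at h6
  refine h6.mono_set ?_
  intro x hx
  exact ⟨lt_of_le_of_lt (neg_le_neg (le_max_left _ _)) hx.1, hx.2.le.trans (le_max_left _ _)⟩

theorem lint_abs_rpow_lt_top {γ : ℝ} (hγ : γ < 1) (R : ℝ) :
    ∫⁻ x in Ioo (-R) R, ENNReal.ofReal (|x| ^ (-γ)) < ⊤ := by
  have h := (integrableOn_abs_rpow hγ R).lintegral_lt_top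
  exact h

/-- the translated form, uniformly in the translation -/
theorem lint_translate_le {γ : ℝ} (hγ : 0 ≤ γ) (s : ℝ) :
    ∫⁻ r in Ioo (0 : ℝ) 1, ENNReal.ofReal (|s - r| ^ (-γ)) ≤
      (∫⁻ x in Ioo (-1 : ℝ) 1, ENNReal.ofReal (|x| ^ (-γ))) + 1 := by
  have h1 : ∀ r : ℝ, ENNReal.ofReal (|s - r| ^ (-γ)) ≤
      (Ioo (-1 : ℝ) 1).indicator (fun x => ENNReal.ofReal (|x| ^ (-γ))) (s - r) + 1 := by
    intro r
    by_cases h : s - r ∈ Ioo (-1 : ℝ) 1
    · rw [indicator_of_mem h]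
      exact le_self_add
    · rw [indicator_of_notMem h, zero_add]
      rw [← ENNReal.ofReal_one]
      apply ENNReal.ofReal_le_ofReal
      have h2 : 1 ≤ |s - r| := by
        rw [mem_Ioo, ← abs_lt] at h
        exact not_lt.1 h
      exact Real.rpow_le_one_of_one_le_of_nonpos h2 (by linarith)
  calc ∫⁻ r in Ioo (0 : ℝ) 1, ENNReal.ofReal (|s - r| ^ (-γ))
      ≤ ∫⁻ r in Ioo (0 : ℝ) 1, ((Ioo (-1 : ℝ) 1).indicator
          (fun x => ENNReal.ofReal (|x| ^ (-γ))) (s - r) + 1) := lintegral_mono h1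
    _ = (∫⁻ r in Ioo (0 : ℝ) 1, (Ioo (-1 : ℝ) 1).indicator
          (fun x => ENNReal.ofReal (|x| ^ (-γ))) (s - r)) + 1 := by
        rw [lintegral_add_right _ measurable_const]
        simp
    _ ≤ (∫⁻ r, (Ioo (-1 : ℝ) 1).indicator
          (fun x => ENNReal.ofReal (|x| ^ (-γ))) (s - r)) + 1 := by
        gcongr
        exact Measure.restrict_le_self
    _ = (∫⁻ x in Ioo (-1 : ℝ) 1, ENNReal.ofReal (|x| ^ (-γ))) + 1 := by
        rw [lintegral_sub_left_eq_self, lintegral_indicator measurableSet_Ioo]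

/-- lower bound of the distance in polar coordinates -/
theorem polar_dist_ge (s r θ : ℝ) (hs : 0 ≤ s) (hr : 0 ≤ r) (hθ : |θ| ≤ Real.pi) :
    |s - r| ≤ ‖(s : ℂ) - (r : ℂ) * Complex.exp (θ * Complex.I)‖ ∧
      r * |θ| / Real.pi ≤ ‖(s : ℂ) - (r : ℂ) * Complex.exp (θ * Complex.I)‖ := by
  constructor
  · have h1 : ‖(r : ℂ) * Complex.exp (θ * Complex.I)‖ = r := by
      rw [norm_mul, Complex.norm_exp_ofReal_mul_I, mul_one, Complex.norm_real, Real.norm_eq_abs,
        abs_of_nonneg hr]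
    have h2 : ‖(s : ℂ)‖ = s := by
      rw [Complex.norm_real, Real.norm_eq_abs, abs_of_nonneg hs]
    have h3 := abs_norm_sub_norm_le (s : ℂ) ((r : ℂ) * Complex.exp (θ * Complex.I))
    rwa [h1, h2] at h3
  · -- `‖s - r e^{iθ}‖ ≥ r |sin (θ/2)| ≥ r |θ| / π`
    have hsq : ‖(s : ℂ) - (r : ℂ) * Complex.exp (θ * Complex.I)‖ ^ 2 =
        (s - r) ^ 2 + 4 * s * r * Real.sin (θ / 2) ^ 2 := by
      have h1 : ‖(s : ℂ) - (r : ℂ) * Complex.exp (θ * Complex.I)‖ ^ 2 =
          (s - r * Real.cos θ) ^ 2 + (r * Real.sin θ) ^ 2 := by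
        rw [← Complex.normSq_eq_norm_sq, Complex.normSq_apply]
        simp only [Complex.sub_re, Complex.ofReal_re, Complex.mul_re, Complex.exp_ofReal_mul_I_re,
          Complex.ofReal_im, Complex.exp_ofReal_mul_I_im, zero_mul, sub_zero, Complex.sub_im,
          Complex.mul_im, add_zero, zero_sub]
        ring
      rw [h1]
      have h2 : Real.sin (θ / 2) ^ 2 = (1 - Real.cos θ) / 2 := by
        have := Real.cos_sq (θ / 2)
        have h3 := Real.sin_sq_add_cos_sq (θ / 2)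
        have h4 : 2 * (θ / 2) = θ := by ring
        rw [h4] at this
        linarith
      rw [h2]
      have h3 := Real.sin_sq_add_cos_sq θ
      have h4 : (r * Real.sin θ) ^ 2 = r ^ 2 * (1 - Real.cos θ ^ 2) := by
        rw [mul_pow]; congr 1; linarith
      rw [h4]; ring
    have hpi := Real.pi_pos
    have hsin : |θ| / Real.pi ≤ |Real.sin (θ / 2)| := by
      have h1 := Real.mul_abs_le_abs_sin (x := θ / 2) (by rw [abs_div, abs_two]; linarith)
      rw [abs_div, abs_two] at h1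
      calc |θ| / Real.pi = 2 / Real.pi * (|θ| / 2) := by field_simp
        _ ≤ _ := h1
    set S := Real.sin (θ / 2) ^ 2 with hSdef
    have hS0 : 0 ≤ S := sq_nonneg _
    have hS1 : S ≤ 1 := Real.sin_sq_le_one _
    have hkey : r ^ 2 * S ≤ (s - r) ^ 2 + 4 * s * r * S := by
      rcases le_total S (3 / 4) with h | h
      · have : (s - r) ^ 2 + 4 * s * r * S - r ^ 2 * S =
            (s - r * (1 - 2 * S)) ^ 2 + r ^ 2 * (S * (3 - 4 * S)) := by ring
        have h2 : 0 ≤ r ^ 2 * (S * (3 - 4 * S)) :=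
          mul_nonneg (sq_nonneg _) (mul_nonneg hS0 (by linarith))
        nlinarith [sq_nonneg (s - r * (1 - 2 * S))]
      · have : (s - r) ^ 2 + 4 * s * r * S - r ^ 2 * S =
            s ^ 2 + 2 * (s * r) * (2 * S - 1) + r ^ 2 * (1 - S) := by ring
        have h2 : 0 ≤ 2 * (s * r) * (2 * S - 1) :=
          mul_nonneg (by positivity) (by linarith)
        have h3 : 0 ≤ r ^ 2 * (1 - S) := mul_nonneg (sq_nonneg _) (by linarith)
        nlinarith [sq_nonneg s]
    have h5 : (r * |θ| / Real.pi) ^ 2 ≤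
        ‖(s : ℂ) - (r : ℂ) * Complex.exp (θ * Complex.I)‖ ^ 2 := by
      rw [hsq]
      refine le_trans ?_ hkey
      have h6 : (r * |θ| / Real.pi) ^ 2 = r ^ 2 * (|θ| / Real.pi) ^ 2 := by ring
      rw [h6, hSdef, ← sq_abs (Real.sin (θ / 2))]
      have h7 : 0 ≤ |θ| / Real.pi := by positivity
      gcongr
    exact (sq_le_sq₀ (by positivity) (norm_nonneg _)).1 h5

/-- `x^(-α) y^(-a) ≤ x^(-(α+a)) + y^(-(α+a))` -/
theorem rpow_split {x y α a : ℝ} (hx : 0 < x) (hy : 0 < y) (hα : 0 ≤ α) (ha : 0 ≤ a) :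
    x ^ (-α) * y ^ (-a) ≤ x ^ (-(α + a)) + y ^ (-(α + a)) := by
  rcases le_total x y with h | h
  · have h1 : y ^ (-a) ≤ x ^ (-a) := Real.rpow_le_rpow_of_nonpos hx h (by linarith)
    have h2 : x ^ (-α) * y ^ (-a) ≤ x ^ (-α) * x ^ (-a) :=
      mul_le_mul_of_nonneg_left h1 (Real.rpow_nonneg hx.le _)
    rw [← Real.rpow_add hx] at h2
    have h3 : 0 ≤ y ^ (-(α + a)) := Real.rpow_nonneg hy.le _
    have h4 : -α + -a = -(α + a) := by ring
    rw [h4] at h2
    linarith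
  · have h1 : x ^ (-α) ≤ y ^ (-α) := Real.rpow_le_rpow_of_nonpos hy h (by linarith)
    have h2 : x ^ (-α) * y ^ (-a) ≤ y ^ (-α) * y ^ (-a) :=
      mul_le_mul_of_nonneg_right h1 (Real.rpow_nonneg hy.le _)
    rw [← Real.rpow_add hy] at h2
    have h3 : 0 ≤ x ^ (-(α + a)) := Real.rpow_nonneg hx.le _
    have h4 : -α + -a = -(α + a) := by ring
    rw [h4] at h2
    linarith

/-- pointwise bound in polar coordinates -/
theorem polar_pointwise {s r θ α a b : ℝ} (hs : 0 ≤ s) (hr : 0 < r) (hr1 : r < 1)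
    (hθ : |θ| ≤ Real.pi) (hθ0 : θ ≠ 0) (hrs : s ≠ r) (hα : 0 ≤ α) (ha : 0 ≤ a) (hb : 0 ≤ b)
    (hb1 : b ≤ 1) :
    r * ((1 - r) ^ (-α) *
      ‖(s : ℂ) - (r : ℂ) * Complex.exp (θ * Complex.I)‖ ^ (-(a + b))) ≤
      (|1 - r| ^ (-(α + a)) + |s - r| ^ (-(α + a))) * (Real.pi ^ b * |θ| ^ (-b)) := by
  obtain ⟨h1, h2⟩ := polar_dist_ge s r θ hs hr.le hθ
  set N := ‖(s : ℂ) - (r : ℂ) * Complex.exp (θ * Complex.I)‖ with hN
  have hpi := Real.pi_pos
  have hsr : 0 < |s - r| := abs_pos.2 (sub_ne_zero.2 hrs)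
  have hθp : 0 < |θ| := abs_pos.2 hθ0
  have hN0 : 0 < N := lt_of_lt_of_le hsr h1
  have h3 : N ^ (-a) ≤ |s - r| ^ (-a) := Real.rpow_le_rpow_of_nonpos hsr h1 (by linarith)
  have hq : 0 < r * |θ| / Real.pi := by positivity
  have h4 : N ^ (-b) ≤ (r * |θ| / Real.pi) ^ (-b) :=
    Real.rpow_le_rpow_of_nonpos hq h2 (by linarith)
  have h5 : (r * |θ| / Real.pi) ^ (-b) = r ^ (-b) * (Real.pi ^ b * |θ| ^ (-b)) := by
    rw [mul_div_assoc, Real.mul_rpow hr.le (by positivity), Real.div_rpow hθp.le hpi.le,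
      Real.rpow_neg hpi.le, div_inv_eq_mul, mul_comm (|θ| ^ (-b))]
  have h6 : r * r ^ (-b) ≤ 1 := by
    have h7 : r * r ^ (-b) = r ^ (1 - b) := by
      rw [sub_eq_add_neg, Real.rpow_add hr, Real.rpow_one]
    rw [h7]
    exact Real.rpow_le_one hr.le hr1.le (by linarith)
  have h1r : |1 - r| = 1 - r := abs_of_pos (by linarith)
  have h8 : (1 - r) ^ (-α) * |s - r| ^ (-a) ≤
      |1 - r| ^ (-(α + a)) + |s - r| ^ (-(α + a)) := by
    rw [h1r]
    exact rpow_split (by linarith) hsr hα ha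
  have hW : 0 ≤ Real.pi ^ b * |θ| ^ (-b) := by positivity
  have h9 : N ^ (-(a + b)) = N ^ (-a) * N ^ (-b) := by
    rw [← Real.rpow_add hN0]; congr 1; ring
  have h10 : 0 ≤ (1 - r) ^ (-α) := Real.rpow_nonneg (by linarith) _
  rw [h9]
  calc r * ((1 - r) ^ (-α) * (N ^ (-a) * N ^ (-b)))
      ≤ r * ((1 - r) ^ (-α) * (|s - r| ^ (-a) * (r ^ (-b) * (Real.pi ^ b * |θ| ^ (-b))))) := by
        rw [← h5]
        gcongr
    _ = ((1 - r) ^ (-α) * |s - r| ^ (-a)) * ((r * r ^ (-b)) * (Real.pi ^ b * |θ| ^ (-b))) := by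
        ring
    _ ≤ (|1 - r| ^ (-(α + a)) + |s - r| ^ (-(α + a))) *
          (1 * (Real.pi ^ b * |θ| ^ (-b))) := by
        gcongr
    _ = _ := by ring

/-- the weighted kernel on the disc -/
noncomputable def ker (α β : ℝ) (z w : ℂ) : ℝ≥0∞ :=
  (ball (0 : ℂ) 1).indicator (fun w => ENNReal.ofReal ((1 - ‖w‖) ^ (-α) * ‖z - w‖ ^ (-β))) w

theorem measurable_ker (α β : ℝ) (z : ℂ) : Measurable (ker α β z) := by
  unfold ker
  refine Measurable.indicator ?_ measurableSet_ball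
  fun_prop

/-- the constant -/
noncomputable def kerC (α a b : ℝ) : ℝ≥0∞ :=
  2 * ((∫⁻ x in Ioo (-1 : ℝ) 1, ENNReal.ofReal (|x| ^ (-(α + a)))) + 1) *
    (ENNReal.ofReal (Real.pi ^ b) * ∫⁻ x in Ioo (-Real.pi) Real.pi, ENNReal.ofReal (|x| ^ (-b)))

theorem kerC_lt_top {α a b : ℝ} (h : α + a < 1) (hb : b < 1) : kerC α a b < ⊤ := by
  unfold kerC
  refine ENNReal.mul_lt_top ?_ ?_
  · refine ENNReal.mul_lt_top (by norm_num) ?_
    exact ENNReal.add_lt_top.2 ⟨lint_abs_rpow_lt_top h 1, ENNReal.one_lt_top⟩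
  · exact ENNReal.mul_lt_top ENNReal.ofReal_lt_top (lint_abs_rpow_lt_top hb _)

/-- rotation to the positive axis -/
theorem lint_ker_rotate (α β : ℝ) (z : ℂ) :
    ∫⁻ w, ker α β z w = ∫⁻ w, ker α β (‖z‖ : ℂ) w := by
  by_cases hz : z = 0
  · simp [hz]
  have hz' : (‖z‖ : ℂ) ≠ 0 := by simpa using hz
  have hc : ‖z / (‖z‖ : ℂ)‖ = 1 := by
    rw [norm_div, Complex.norm_real, norm_norm, div_self (norm_ne_zero_iff.2 hz)]
  let c : Circle := ⟨z / (‖z‖ : ℂ), mem_sphere_zero_iff_norm.2 hc⟩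
  have hcz : (c : ℂ) * (‖z‖ : ℂ) = z := by
    show z / (‖z‖ : ℂ) * (‖z‖ : ℂ) = z
    exact div_mul_cancel₀ _ hz'
  have hmp := (rotation c).measurePreserving
  have h1 := hmp.lintegral_comp (measurable_ker α β z)
  rw [← h1]
  refine lintegral_congr fun w => ?_
  unfold ker
  have hn : ‖(rotation c) w‖ = ‖w‖ := (rotation c).norm_map w
  have hd : ‖z - (rotation c) w‖ = ‖(‖z‖ : ℂ) - w‖ := by
    rw [rotation_apply]
    conv_lhs => rw [← hcz]
    rw [← mul_sub, norm_mul, Circle.norm_coe, one_mul]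
  by_cases hw : w ∈ ball (0 : ℂ) 1
  · have hw' : (rotation c) w ∈ ball (0 : ℂ) 1 := by
      rw [mem_ball_zero_iff] at hw ⊢; rwa [hn]
    rw [indicator_of_mem hw, indicator_of_mem hw', hn, hd]
  · have hw' : (rotation c) w ∉ ball (0 : ℂ) 1 := by
      rw [mem_ball_zero_iff] at hw ⊢; rwa [hn]
    rw [indicator_of_notMem hw, indicator_of_notMem hw']

/-- MASTER BOUND -/
theorem lint_ker_le {α a b : ℝ} (hα : 0 ≤ α) (ha : 0 ≤ a) (hb : 0 ≤ b) (hb1 : b ≤ 1) (z : ℂ) :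
    ∫⁻ w, ker α (a + b) z w ≤ kerC α a b := by
  rw [lint_ker_rotate]
  set s : ℝ := ‖z‖ with hs
  have hs0 : 0 ≤ s := norm_nonneg _
  rw [← Complex.lintegral_comp_polarCoord_symm, polarCoord_target]
  set A : ℝ → ℝ≥0∞ := fun r => (Ioo (0 : ℝ) 1).indicator
    (fun r => ENNReal.ofReal (|1 - r| ^ (-(α + a))) + ENNReal.ofReal (|s - r| ^ (-(α + a)))) r
    with hA
  set B : ℝ → ℝ≥0∞ := fun θ => ENNReal.ofReal (Real.pi ^ b) * ENNReal.ofReal (|θ| ^ (-b)) with hB
  have hAm : Measurable A := by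
    refine Measurable.indicator ?_ measurableSet_Ioo
    fun_prop
  have hBm : Measurable B := by fun_prop
  have key : ∀ᵐ p : ℝ × ℝ ∂(volume.restrict (Ioi (0 : ℝ) ×ˢ Ioo (-Real.pi) Real.pi)),
      ENNReal.ofReal p.1 • ker α (a + b) (s : ℂ) (Complex.polarCoord.symm p) ≤ A p.1 * B p.2 := by
    have e1 : ∀ᵐ p : ℝ × ℝ ∂(volume.restrict (Ioi (0 : ℝ) ×ˢ Ioo (-Real.pi) Real.pi)),
        p ∈ (Ioi (0 : ℝ) ×ˢ Ioo (-Real.pi) Real.pi) :=
      ae_restrict_mem (measurableSet_Ioi.prod measurableSet_Ioo)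
    have e2 : ∀ᵐ p : ℝ × ℝ ∂(volume.restrict (Ioi (0 : ℝ) ×ˢ Ioo (-Real.pi) Real.pi)),
        p.1 ≠ s ∧ p.2 ≠ 0 := by
      refine ae_restrict_of_ae ?_
      have f1 : ∀ᵐ x : ℝ, x ≠ s := by
        rw [ae_iff]; simp
      have f2 : ∀ᵐ x : ℝ, x ≠ 0 := by
        rw [ae_iff]; simp
      have g1 : ∀ᵐ p : ℝ × ℝ ∂(volume.prod volume), p.1 ≠ s :=
        Measure.quasiMeasurePreserving_fst.ae f1
      have g2 : ∀ᵐ p : ℝ × ℝ ∂(volume.prod volume), p.2 ≠ 0 :=
        Measure.quasiMeasurePreserving_snd.ae f2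
      exact g1.and g2
    filter_upwards [e1, e2] with p hp hq
    obtain ⟨hp1, hp2⟩ := hp
    have hr : 0 < p.1 := hp1
    have hsymm : Complex.polarCoord.symm p = (p.1 : ℂ) * Complex.exp (p.2 * Complex.I) := by
      rw [Complex.polarCoord_symm_apply, Complex.exp_mul_I]
      push_cast
      rfl
    have hnorm : ‖Complex.polarCoord.symm p‖ = p.1 := by
      rw [Complex.norm_polarCoord_symm, abs_of_pos hr]
    by_cases h1 : p.1 < 1
    · have hm : Complex.polarCoord.symm p ∈ ball (0 : ℂ) 1 := by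
        rw [mem_ball_zero_iff, hnorm]; exact h1
      have hAp : A p.1 = ENNReal.ofReal (|1 - p.1| ^ (-(α + a))) +
          ENNReal.ofReal (|s - p.1| ^ (-(α + a))) := by
        simp only [hA]
        rw [indicator_of_mem (show p.1 ∈ Ioo (0 : ℝ) 1 from ⟨hr, h1⟩)]
      rw [hAp]
      unfold ker
      rw [indicator_of_mem hm, hnorm, smul_eq_mul, ← ENNReal.ofReal_mul hr.le, hB]
      simp only
      rw [← ENNReal.ofReal_add (by positivity) (by positivity), ← ENNReal.ofReal_mul (by positivity),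
        ← ENNReal.ofReal_mul (by positivity), hsymm]
      apply ENNReal.ofReal_le_ofReal
      exact polar_pointwise hs0 hr h1 (abs_le.2 ⟨hp2.1.le, hp2.2.le⟩) hq.2 (Ne.symm hq.1)
        hα ha hb hb1
    · have hm : Complex.polarCoord.symm p ∉ ball (0 : ℂ) 1 := by
        rw [mem_ball_zero_iff, hnorm]; exact h1
      unfold ker
      rw [indicator_of_notMem hm]
      simp
  calc ∫⁻ p in Ioi (0 : ℝ) ×ˢ Ioo (-Real.pi) Real.pi,
        ENNReal.ofReal p.1 • ker α (a + b) (s : ℂ) (Complex.polarCoord.symm p)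
      ≤ ∫⁻ p in Ioi (0 : ℝ) ×ˢ Ioo (-Real.pi) Real.pi, A p.1 * B p.2 := lintegral_mono_ae key
    _ = (∫⁻ r in Ioi (0 : ℝ), A r) * ∫⁻ θ in Ioo (-Real.pi) Real.pi, B θ := by
        rw [Measure.volume_eq_prod, ← Measure.prod_restrict]
        exact lintegral_prod_mul hAm.aemeasurable hBm.aemeasurable
    _ ≤ kerC α a b := by
        unfold kerC
        gcongr
        · calc ∫⁻ r in Ioi (0 : ℝ), A r ≤ ∫⁻ r, A r := by
                gcongr
                exact Measure.restrict_le_self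
            _ = ∫⁻ r in Ioo (0 : ℝ) 1, (ENNReal.ofReal (|1 - r| ^ (-(α + a))) +
                  ENNReal.ofReal (|s - r| ^ (-(α + a)))) := by
                rw [hA, lintegral_indicator measurableSet_Ioo]
            _ = (∫⁻ r in Ioo (0 : ℝ) 1, ENNReal.ofReal (|1 - r| ^ (-(α + a)))) +
                  ∫⁻ r in Ioo (0 : ℝ) 1, ENNReal.ofReal (|s - r| ^ (-(α + a))) := by
                rw [lintegral_add_left (by fun_prop)]
            _ ≤ _ := by
                rw [two_mul]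
                exact add_le_add (lint_translate_le (by linarith) 1)
                  (lint_translate_le (by linarith) s)
        · rw [hB, lintegral_const_mul _ (by fun_prop)]

end Vale.Agent.P272.CT
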