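import Vale.Agent.P272.CT.Weyl
import Vale.Agent.P272.CT.Cauchy
import Vale.Agent.P116.FK.Pom

/-! P272 / CT (helper853): the Cauchy transform solves `∂̄u = F` weakly, for every `F` integrable on
the unit disc. -/

set_option linter.unusedSectionVars false

open MeasureTheory Filter Topology Set Metric
open scoped ContDiff Real

namespace Vale.Agent.P272.CT

noncomputable section

variable {E : Type*} [NormedAddCommGroup E] [NormedSpace ℂ E] [CompleteSpace E]

theorem integrableOn_inv_ball (R : ℝ) : IntegrableOn (fun z : ℂ => ‖z‖⁻¹) (ball (0 : ℂ) R) := by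
  rw [integrableOn_fun_norm_addHaar (volume : Measure ℂ) (f := fun r : ℝ => r⁻¹)]
  rw [Complex.finrank_real_complex]
  have : IntegrableOn (fun _ : ℝ => (1 : ℝ)) (Set.Ioo 0 R) := by
    simp
  refine this.congr_fun ?_ measurableSet_Ioo
  intro r hr
  have : r ≠ 0 := ne_of_gt hr.1
  simp only [smul_eq_mul]
  rw [show 2 - 1 = 1 from rfl, pow_one, mul_inv_cancel₀ this]

theorem locallyIntegrable_inv : LocallyIntegrable (fun z : ℂ => z⁻¹) := by
  have h : LocallyIntegrable (fun z : ℂ => ‖z‖⁻¹) := by
    intro x
    exact ⟨ball 0 (‖x‖ + 1), isOpen_ball.mem_nhds (by rw [mem_ball_zero_iff]; linarith),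
      integrableOn_inv_ball _⟩
  refine h.mono measurable_inv.aestronglyMeasurable (Eventually.of_forall fun z => ?_)
  simp

theorem integrable_inv_mul {g : ℂ → ℂ} (hg : Continuous g) (hs : HasCompactSupport g) :
    Integrable (fun w => w⁻¹ * g w) := by
  have := locallyIntegrable_inv.integrable_smul_left_of_hasCompactSupport hg hs
  refine this.congr (Eventually.of_forall fun w => ?_)
  simp [mul_comm]

theorem integrable_inv_sub_mul {g : ℂ → ℂ} (hg : Continuous g) (hs : HasCompactSupport g)
    (z : ℂ) : Integrable (fun w => (w - z)⁻¹ * g w) := by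
  have h1 : Integrable (fun w => w⁻¹ * g (w + z)) := by
    refine integrable_inv_mul (g := fun w => g (w + z)) (by fun_prop) ?_
    exact hs.comp_homeomorph (Homeomorph.addRight z)
  have h2 := h1.comp_sub_right z
  simpa using h2

/-- Cauchy–Pompeiu at a general point -/
theorem pompeiu_at {η : ℂ → ℂ} (h : ContDiff ℝ 1 η) (hs : HasCompactSupport η) (w : ℂ) :
    ∫ z, (z - w)⁻¹ * dbar η z = - π * η w := by
  have h1 : ContDiff ℝ 1 fun z => η (z + w) := h.comp (contDiff_id.add contDiff_const)
  have h2 : HasCompactSupport fun z => η (z + w) := hs.comp_homeomorph (Homeomorph.addRight w)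
  have h3 := P116.FK.pompeiu h1 h2
  rw [zero_add] at h3
  rw [← integral_add_right_eq_self _ w]
  have h4 : ∀ z, (z + w - w)⁻¹ * dbar η (z + w) =
      (1 / 2) * (z⁻¹ * P116.FK.db (fun z => η (z + w)) z) := by
    intro z
    simp only [add_sub_cancel_right, P116.FK.db, dbar, fderiv_comp_add_right]
    ring
  simp_rw [h4]
  rw [integral_const_mul, h3]
  ring

theorem continuous_dbar1 {η : ℂ → ℂ} (h : ContDiff ℝ 1 η) : Continuous (dbar η) := by
  have h1 : Continuous (fderiv ℝ η) := h.continuous_fderiv (by simp)
  unfold dbar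
  exact continuous_const.mul ((h1.clm_apply continuous_const).add
    (continuous_const.mul (h1.clm_apply continuous_const)))

/-- uniform bound of the potential of a compactly supported function -/
theorem exists_potential_bound {g : ℂ → ℂ} (hg : Continuous g) (hs : HasCompactSupport g) :
    ∃ C : ℝ, ∀ w ∈ ball (0 : ℂ) 1, ∫ z, ‖(z - w)⁻¹ * g z‖ ≤ C := by
  obtain ⟨B, hB⟩ := hg.bounded_above_of_compact_support hs
  obtain ⟨R, hR⟩ := hs.isCompact.isBounded.subset_ball 0
  refine ⟨∫ z in ball (0 : ℂ) (R + 1), ‖z‖⁻¹ * B, fun w hw => ?_⟩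
  have h0 : ∫ z, ‖(z - w)⁻¹ * g z‖ = ∫ z, ‖z⁻¹ * g (z + w)‖ := by
    rw [← integral_add_right_eq_self _ w]
    simp only [add_sub_cancel_right]
  rw [h0]
  have hsupp : ∀ z ∉ ball (0 : ℂ) (R + 1), ‖z⁻¹ * g (z + w)‖ = 0 := by
    intro z hz
    have : g (z + w) = 0 := by
      by_contra h1
      have h2 := hR (subset_tsupport _ h1)
      rw [mem_ball_zero_iff] at h2 hz hw
      have h3 : ‖z‖ ≤ ‖z + w‖ + ‖w‖ := by
        have := norm_sub_le (z + w) w
        rwa [add_sub_cancel_right] at this
      exact hz (by linarith)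
    rw [this, mul_zero, norm_zero]
  rw [← setIntegral_eq_integral_of_forall_compl_eq_zero hsupp]
  refine setIntegral_mono_on ?_ ((integrableOn_inv_ball _).mul_const B) measurableSet_ball ?_
  · have h1 : Integrable fun z => z⁻¹ * g (z + w) := by
      refine integrable_inv_mul (g := fun z => g (z + w)) (by fun_prop) ?_
      exact hs.comp_homeomorph (Homeomorph.addRight w)
    exact h1.norm.integrableOn
  · intro z _
    rw [norm_mul, norm_inv]
    exact mul_le_mul_of_nonneg_left (hB _) (by positivity)

/-- **the Cauchy transform solves `∂̄u = F` weakly**, `C¹` test functions on all of `ℂ` -/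
theorem integral_dbar_cauT {F : ℂ → E} (hF : IntegrableOn F (ball 0 1)) {η : ℂ → ℂ}
    (hη : ContDiff ℝ 1 η) (hc : HasCompactSupport η) :
    ∫ z, dbar η z • cauT F z = - ∫ w in ball (0 : ℂ) 1, η w • F w := by
  have hdc : Continuous (dbar η) := continuous_dbar1 hη
  have hds : HasCompactSupport (dbar η) := hasCompactSupport_dbar hc
  obtain ⟨C, hC⟩ := exists_potential_bound hdc hds
  set ν : Measure ℂ := volume.restrict (ball (0 : ℂ) 1) with hν
  have hmeas : AEStronglyMeasurable (fun p : ℂ × ℂ => ((p.1 - p.2)⁻¹ * dbar η p.1) • F p.2)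
      ((volume : Measure ℂ).prod ν) := by
    refine AEStronglyMeasurable.smul ?_ hF.aestronglyMeasurable.comp_snd
    refine Measurable.aestronglyMeasurable ?_
    exact ((measurable_fst.sub measurable_snd).inv).mul (hdc.measurable.comp measurable_fst)
  have hint : Integrable (fun p : ℂ × ℂ => ((p.1 - p.2)⁻¹ * dbar η p.1) • F p.2)
      ((volume : Measure ℂ).prod ν) := by
    rw [integrable_prod_iff' hmeas]
    constructor
    · exact Eventually.of_forall fun w => (integrable_inv_sub_mul hdc hds w).smul_const (F w)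
    · refine Integrable.mono' (g := fun w => C * ‖F w‖) (hF.norm.const_mul C)
        (hmeas.prod_swap.norm.integral_prod_right') ?_
      refine (ae_restrict_iff' measurableSet_ball).2 (Eventually.of_forall fun w hw => ?_)
      have h1 : ∀ z, ‖((z - w)⁻¹ * dbar η z) • F w‖ = ‖(z - w)⁻¹ * dbar η z‖ * ‖F w‖ :=
        fun z => norm_smul _ _
      rw [Real.norm_of_nonneg (integral_nonneg fun _ => norm_nonneg _)]
      simp only [h1]
      rw [integral_mul_const]
      exact mul_le_mul_of_nonneg_right (hC w hw) (norm_nonneg _)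
  calc ∫ z, dbar η z • cauT F z
      = ∫ z, ((π : ℂ))⁻¹ • ∫ w, ((z - w)⁻¹ * dbar η z) • F w ∂ν := by
        refine integral_congr_ae (Eventually.of_forall fun z => ?_)
        simp only [cauT]
        rw [smul_comm, ← integral_smul]
        congr 1
        refine integral_congr_ae (Eventually.of_forall fun w => ?_)
        simp only [smul_smul, mul_comm]
    _ = ((π : ℂ))⁻¹ • ∫ w, (∫ z, ((z - w)⁻¹ * dbar η z) • F w) ∂ν := by
        rw [integral_smul, integral_integral_swap hint]
    _ = ((π : ℂ))⁻¹ • ∫ w, (- π * η w) • F w ∂ν := by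
        congr 1
        refine integral_congr_ae (Eventually.of_forall fun w => ?_)
        simp only
        rw [integral_smul_const, pompeiu_at hη hc]
    _ = - ∫ w in ball (0 : ℂ) 1, η w • F w := by
        rw [← integral_smul, ← integral_neg]
        refine integral_congr_ae (Eventually.of_forall fun w => ?_)
        simp only [smul_smul, ← neg_smul]
        congr 1
        have : (π : ℂ) ≠ 0 := by exact_mod_cast Real.pi_ne_zero
        field_simp

theorem wdb_cauT_univ {F : ℂ → E} (hF : IntegrableOn F (ball 0 1)) :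
    WDb univ (cauT F) ((ball (0 : ℂ) 1).indicator F) := by
  intro η hη hc _
  rw [integral_dbar_cauT hF (hη.of_le (by simp)) hc]
  congr 1
  rw [← integral_indicator measurableSet_ball]
  refine integral_congr_ae (Eventually.of_forall fun w => ?_)
  by_cases hw : w ∈ ball (0 : ℂ) 1
  · simp [indicator_of_mem hw]
  · simp [indicator_of_notMem hw]

/-- (C3) -/
theorem wdb_cauT {F : ℂ → E} (hF : IntegrableOn F (ball 0 1)) : WDb (ball 0 1) (cauT F) F :=
  ((wdb_cauT_univ hF).mono (subset_univ _)).congr (fun _ _ => rfl)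
    fun _ hw => indicator_of_mem hw _

/-- outside the closed disc the Cauchy transform is weakly holomorphic -/
theorem wdb_cauT_compl {F : ℂ → E} (hF : IntegrableOn F (ball 0 1)) :
    WDb (closedBall 0 1)ᶜ (cauT F) fun _ => 0 :=
  ((wdb_cauT_univ hF).mono (subset_univ _)).congr (fun _ _ => rfl)
    fun _ hw => indicator_of_notMem (fun h => hw (ball_subset_closedBall h)) _

end

end Vale.Agent.P272.CT
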