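import Mathlib

/-! P272 / CT (helper853): the weak `∂̄` equation in one variable.

`WDb Ω v q` : `∂̄ v = q` on `Ω` in the sense of distributions. Mollification, Weyl's lemma,
product rule and chain rule, for functions with values in a complex normed space. -/

set_option linter.unusedSectionVars false

open MeasureTheory Filter Topology Set Metric
open scoped ContDiff Convolution

namespace Vale.Agent.P272.CT

noncomputable section

variable {E : Type*} [NormedAddCommGroup E] [NormedSpace ℂ E]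
  {F : Type*} [NormedAddCommGroup F] [NormedSpace ℂ F]

/-- `∂̄η` for complex valued functions -/
def dbar (η : ℂ → ℂ) (z : ℂ) : ℂ := (1 / 2) * (fderiv ℝ η z 1 + Complex.I * fderiv ℝ η z Complex.I)

/-- `∂̄u` for vector valued functions -/
def dbarV (u : ℂ → E) (z : ℂ) : E :=
  (1 / 2 : ℂ) • (fderiv ℝ u z 1 + Complex.I • fderiv ℝ u z Complex.I)

theorem dbarV_eq (η : ℂ → ℂ) : dbarV η = dbar η := rfl

/-- `∂̄v = q` on `Ω`, weakly -/
def WDb (Ω : Set ℂ) (v q : ℂ → E) : Prop :=
  ∀ η : ℂ → ℂ, ContDiff ℝ ∞ η → HasCompactSupport η → tsupport η ⊆ Ω →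
    ∫ z, dbar η z • v z = - ∫ z, η z • q z

/-! ### elementary facts about `∂̄` -/

theorem dbarV_congr {u v : ℂ → E} {z : ℂ} (h : u =ᶠ[𝓝 z] v) : dbarV u z = dbarV v z := by
  unfold dbarV
  rw [h.fderiv_eq]

theorem dbarV_eq_zero_iff {u : ℂ → E} {z : ℂ} (h : DifferentiableAt ℝ u z) :
    dbarV u z = 0 ↔ DifferentiableAt ℂ u z := by
  rw [differentiableAt_complex_iff_differentiableAt_real]
  unfold dbarV
  constructor
  · intro h0
    refine ⟨h, ?_⟩
    have h1 : fderiv ℝ u z 1 + Complex.I • fderiv ℝ u z Complex.I = 0 := by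
      have := smul_eq_zero.1 h0
      exact this.resolve_left (by norm_num)
    have h2 : Complex.I • (fderiv ℝ u z 1 + Complex.I • fderiv ℝ u z Complex.I) = 0 := by
      rw [h1, smul_zero]
    rw [smul_add, smul_smul, Complex.I_mul_I, neg_one_smul] at h2
    exact (add_neg_eq_zero.1 h2).symm
  · rintro ⟨-, h1⟩
    rw [h1, smul_smul, Complex.I_mul_I, neg_one_smul, add_neg_cancel, smul_zero]

theorem dbarV_smul {η : ℂ → ℂ} {u : ℂ → E} {z : ℂ} (hη : DifferentiableAt ℝ η z)
    (hu : DifferentiableAt ℝ u z) :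
    dbarV (fun z => η z • u z) z = dbar η z • u z + η z • dbarV u z := by
  unfold dbarV dbar
  rw [fderiv_fun_smul hη hu]
  simp only [add_apply, smul_apply,
    ContinuousLinearMap.smulRight_apply, smul_add, smul_smul, mul_add, add_smul]
  have e1 : Complex.I * η z = η z * Complex.I := mul_comm _ _
  have e2 : η z * (1 / 2 : ℂ) = 1 / 2 * η z := mul_comm _ _
  have e3 : η z * (1 / 2 * Complex.I) = 1 / 2 * (Complex.I * η z) := by ring
  rw [e2, e3]
  abel

theorem continuousOn_dbarV {u : ℂ → E} {U : Set ℂ} (hU : IsOpen U) (h : ContDiffOn ℝ 1 u U) :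
    ContinuousOn (dbarV u) U := by
  have h1 : ContinuousOn (fderiv ℝ u) U := h.continuousOn_fderiv_of_isOpen hU (le_refl _)
  unfold dbarV
  exact continuousOn_const.smul ((h1.clm_apply continuousOn_const).add
    (continuousOn_const.smul (h1.clm_apply continuousOn_const)))

theorem contDiff_dbar {η : ℂ → ℂ} (h : ContDiff ℝ ∞ η) : ContDiff ℝ ∞ (dbar η) := by
  have h1 : ContDiff ℝ ∞ (fderiv ℝ η) := h.fderiv_right (by simp)
  unfold dbar
  exact contDiff_const.mul ((h1.clm_apply contDiff_const).add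
    (contDiff_const.mul (h1.clm_apply contDiff_const)))

theorem tsupport_dbar (η : ℂ → ℂ) : tsupport (dbar η) ⊆ tsupport η := by
  refine closure_minimal ?_ (isClosed_tsupport η)
  intro z hz
  by_contra hcon
  refine hz ?_
  have h1 : fderiv ℝ η z = 0 := by
    by_contra h2
    exact hcon (support_fderiv_subset ℝ h2)
  unfold dbar
  rw [h1]
  simp

theorem hasCompactSupport_dbar {η : ℂ → ℂ} (h : HasCompactSupport η) :
    HasCompactSupport (dbar η) := h.of_isClosed_subset (isClosed_tsupport _) (tsupport_dbar η)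

/-! ### test functions times continuous functions -/

theorem continuous_smul_of_tsupport {η : ℂ → ℂ} {u : ℂ → E} {Ω : Set ℂ} (hΩ : IsOpen Ω)
    (hη : Continuous η) (hu : ContinuousOn u Ω) (h : tsupport η ⊆ Ω) :
    Continuous fun z => η z • u z := by
  refine continuous_of_tsupport fun z hz => ?_
  have h1 : z ∈ tsupport η := closure_mono (Function.support_smul_subset_left η u) hz
  exact hη.continuousAt.smul (hu.continuousAt (hΩ.mem_nhds (h h1)))

theorem hasCompactSupport_smul {η : ℂ → ℂ} {u : ℂ → E} (h : HasCompactSupport η) :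
    HasCompactSupport fun z => η z • u z := h.smul_right

theorem integrable_smul_of_tsupport {η : ℂ → ℂ} {u : ℂ → E} {Ω : Set ℂ} (hΩ : IsOpen Ω)
    (hη : Continuous η) (hc : HasCompactSupport η) (hu : ContinuousOn u Ω) (h : tsupport η ⊆ Ω) :
    Integrable fun z => η z • u z :=
  (continuous_smul_of_tsupport hΩ hη hu h).integrable_of_hasCompactSupport
    (hasCompactSupport_smul hc)

/-- `C¹` functions: the weak derivative is the pointwise one -/
theorem WDb.of_contDiffOn {Ω : Set ℂ} (hΩ : IsOpen Ω) {u : ℂ → E} (hu : ContDiffOn ℝ 1 u Ω) :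
    WDb Ω u (dbarV u) := by
  intro η hη hc hs
  have hu0 : ContinuousOn u Ω := hu.continuousOn
  have hd : ContinuousOn (fderiv ℝ u) Ω := hu.continuousOn_fderiv_of_isOpen hΩ (le_refl _)
  have hdiff : ∀ z ∈ tsupport η, DifferentiableAt ℝ u z := fun z hz =>
    (hu.differentiableOn (by simp)).differentiableAt (hΩ.mem_nhds (hs hz))
  have hηd : Continuous (fderiv ℝ η) := hη.continuous_fderiv (by simp)
  have hts : ∀ w : ℂ, tsupport (fun z => fderiv ℝ η z w) ⊆ tsupport η := by
    intro w
    refine closure_minimal ?_ (isClosed_tsupport η)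
    intro z hz
    by_contra hcon
    refine hz ?_
    have h1 : fderiv ℝ η z = 0 := by
      by_contra h2
      exact hcon (support_fderiv_subset ℝ h2)
    simp only [h1]
    rfl
  have hpart : ∀ w : ℂ, ∫ z, fderiv ℝ η z w • u z = - ∫ z, η z • fderiv ℝ u z w := by
    intro w
    have h1 := integral_smul_fderiv_eq_neg_fderiv_smul_of_integrable (μ := (volume : Measure ℂ))
      (𝕜 := ℂ) (f := η) (g := u) (v := w) ?_ ?_ ?_ ?_ hdiff
    · rw [h1, neg_neg]
    · exact integrable_smul_of_tsupport hΩ (hηd.clm_apply continuous_const)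
        (hc.of_isClosed_subset (isClosed_tsupport _) (hts w)) hu0 ((hts w).trans hs)
    · exact integrable_smul_of_tsupport hΩ hη.continuous hc
        (hd.clm_apply continuousOn_const) hs
    · exact integrable_smul_of_tsupport hΩ hη.continuous hc hu0 hs
    · exact fun z _ => (hη.differentiable (by simp)).differentiableAt
  have hi1 : ∀ w : ℂ, Integrable fun z => fderiv ℝ η z w • u z := fun w =>
    integrable_smul_of_tsupport hΩ (hηd.clm_apply continuous_const)
        (hc.of_isClosed_subset (isClosed_tsupport _) (hts w)) hu0 ((hts w).trans hs)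
  have hi2 : ∀ w : ℂ, Integrable fun z => η z • fderiv ℝ u z w := fun w =>
    integrable_smul_of_tsupport hΩ hη.continuous hc (hd.clm_apply continuousOn_const) hs
  have hi1' : Integrable fun z => Complex.I • (fderiv ℝ η z Complex.I • u z) :=
    (hi1 Complex.I).smul Complex.I
  have hi2' : Integrable fun z => Complex.I • (η z • fderiv ℝ u z Complex.I) :=
    (hi2 Complex.I).smul Complex.I
  calc ∫ z, dbar η z • u z = ∫ z, (1 / 2 : ℂ) • (fderiv ℝ η z 1 • u z +
        Complex.I • (fderiv ℝ η z Complex.I • u z)) := by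
        refine integral_congr_ae (Eventually.of_forall fun z => ?_)
        simp only [dbar, smul_smul, smul_add, mul_add, add_smul]
    _ = (1 / 2 : ℂ) • ((∫ z, fderiv ℝ η z 1 • u z) +
        Complex.I • ∫ z, fderiv ℝ η z Complex.I • u z) := by
        rw [integral_smul, integral_add (hi1 1) hi1', integral_smul]
    _ = - ((1 / 2 : ℂ) • ((∫ z, η z • fderiv ℝ u z 1) +
        Complex.I • ∫ z, η z • fderiv ℝ u z Complex.I)) := by
        rw [hpart, hpart, smul_neg, ← neg_add, smul_neg]
    _ = - ∫ z, η z • dbarV u z := by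
        rw [← integral_smul Complex.I, ← integral_add (hi2 1) hi2', ← integral_smul]
        congr 1
        refine integral_congr_ae (Eventually.of_forall fun z => ?_)
        simp only [dbarV, smul_smul, smul_add]
        ring_nf

/-! ### mollification -/

/-- a bump of radius `δ` -/
def bmp (δ : ℝ) (hδ : 0 < δ) : ContDiffBump (0 : ℂ) := ⟨δ / 2, δ, by positivity, by linarith⟩

/-- mollification at scale `δ` -/
def mol (δ : ℝ) (hδ : 0 < δ) (g : ℂ → E) : ℂ → E :=
  (bmp δ hδ).normed volume ⋆[ContinuousLinearMap.lsmul ℝ ℝ, volume] g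

section mol

variable [CompleteSpace E] {δ : ℝ} (hδ : 0 < δ) {g : ℂ → E}

theorem mol_contDiff (hg : LocallyIntegrable g) : ContDiff ℝ ∞ (mol δ hδ g) :=
  (bmp δ hδ).hasCompactSupport_normed.contDiff_convolution_left _
    (bmp δ hδ).contDiff_normed hg

theorem mol_dist (hg : AEStronglyMeasurable g) {x : ℂ} {ε : ℝ}
    (h : ∀ y ∈ ball x δ, dist (g y) (g x) ≤ ε) : dist (mol δ hδ g x) (g x) ≤ ε :=
  ContDiffBump.dist_normed_convolution_le hg h

theorem mol_apply (x : ℂ) :
    mol δ hδ g x = ∫ t, (bmp δ hδ).normed volume (x - t) • g t := by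
  unfold mol
  rw [convolution_eq_swap]
  rfl

theorem mol_fderiv (hg : LocallyIntegrable g) (x w : ℂ) :
    fderiv ℝ (mol δ hδ g) x w = ∫ t, fderiv ℝ ((bmp δ hδ).normed volume) (x - t) w • g t := by
  have h1 := (bmp δ hδ).hasCompactSupport_normed (μ := volume)
  have h2 : ContDiff ℝ ∞ ((bmp δ hδ).normed volume) := (bmp δ hδ).contDiff_normed
  have h3 := h1.hasFDerivAt_convolution_left (ContinuousLinearMap.lsmul ℝ ℝ)
    (h2.of_le (by simp)) hg x
  have h4 : fderiv ℝ (mol δ hδ g) x = _ := h3.fderiv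
  rw [h4, convolution_eq_swap]
  have h5 : Integrable (fun t => ((ContinuousLinearMap.lsmul ℝ ℝ :
      ℝ →L[ℝ] E →L[ℝ] E).precompL ℂ) (fderiv ℝ ((bmp δ hδ).normed volume) (x - t)) (g t)) := by
    have h6 := ((h1.fderiv ℝ).convolutionExists_left ((ContinuousLinearMap.lsmul ℝ ℝ :
      ℝ →L[ℝ] E →L[ℝ] E).precompL ℂ) (h2.continuous_fderiv (by simp)) hg x)
    exact h6.integrable_swap
  rw [ContinuousLinearMap.integral_apply h5]
  rfl

/-- the mollified equation -/
theorem mol_dbar {Ω : Set ℂ} {v q : ℂ → E} (h : WDb Ω v q) {v' q' : ℂ → E}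
    (hv' : LocallyIntegrable v') {x : ℂ} (hx : closedBall x δ ⊆ Ω)
    (e1 : ∀ y ∈ closedBall x δ, v' y = v y) (e2 : ∀ y ∈ closedBall x δ, q' y = q y) :
    dbarV (mol δ hδ v') x = mol δ hδ q' x := by
  set φ := (bmp δ hδ).normed (volume : Measure ℂ) with hφ
  have hφs : ContDiff ℝ ∞ φ := (bmp δ hδ).contDiff_normed
  set η : ℂ → ℂ := fun t => (φ (x - t) : ℂ) with hη
  have hηs : ContDiff ℝ ∞ η := Complex.ofRealCLM.contDiff.comp
    (hφs.comp (contDiff_const.sub contDiff_id))
  have hsupp : Function.support η ⊆ closedBall x δ := by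
    intro t ht
    by_contra hcon
    refine ht ?_
    have h1 : x - t ∉ Function.support φ := by
      rw [hφ, ContDiffBump.support_normed_eq, mem_ball_zero_iff]
      intro h2
      refine hcon ?_
      rw [mem_closedBall, dist_comm, dist_eq_norm]
      exact h2.le
    have h3 : φ (x - t) = 0 := by
      by_contra h4
      exact h1 h4
    simp only [hη, h3, Complex.ofReal_zero]
  have htsupp : tsupport η ⊆ closedBall x δ := closure_minimal hsupp isClosed_closedBall
  have hcs : HasCompactSupport η :=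
    (isCompact_closedBall x δ).of_isClosed_subset (isClosed_tsupport _) htsupp
  have hηd : ∀ t w, fderiv ℝ η t w = - ((fderiv ℝ φ (x - t) w : ℝ) : ℂ) := by
    intro t w
    have h1 : HasFDerivAt (fun t : ℂ => x - t) (-ContinuousLinearMap.id ℝ ℂ) t := by
      simpa using (hasFDerivAt_id (𝕜 := ℝ) t).const_sub x
    have h2 : HasFDerivAt φ (fderiv ℝ φ (x - t)) (x - t) :=
      ((hφs.differentiable (by simp)) (x - t)).hasFDerivAt
    have h3 := Complex.ofRealCLM.hasFDerivAt.comp t (h2.comp t h1)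
    have h4 : fderiv ℝ η t = _ := h3.fderiv
    rw [h4]
    simp
  have hz : ∀ t ∉ closedBall x δ, dbar η t = 0 := fun t ht => by
    by_contra h1
    exact ht (htsupp (tsupport_dbar η (subset_tsupport _ h1)))
  have key := h η hηs hcs (htsupp.trans hx)
  have hint : ∀ w : ℂ, Integrable fun t => fderiv ℝ φ (x - t) w • v' t := by
    intro w
    have h2 : Continuous fun t => fderiv ℝ φ (x - t) w :=
      ((hφs.continuous_fderiv (by simp)).comp (continuous_const.sub continuous_id)).clm_apply
        continuous_const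
    refine hv'.integrable_smul_left_of_hasCompactSupport h2 ?_
    refine (isCompact_closedBall x δ).of_isClosed_subset (isClosed_tsupport _) ?_
    refine closure_minimal ?_ isClosed_closedBall
    intro t ht
    by_contra hcon
    refine ht ?_
    have h3 : η =ᶠ[𝓝 t] fun _ => 0 := by
      filter_upwards [isClosed_closedBall.isOpen_compl.mem_nhds hcon] with s hs
      by_contra h4
      exact hs (hsupp h4)
    have h5 := hηd t w
    rw [h3.fderiv_eq] at h5
    simpa using h5.symm
  calc dbarV (mol δ hδ v') x = - ∫ t, dbar η t • v' t := by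
        unfold dbarV
        rw [mol_fderiv hδ hv', mol_fderiv hδ hv']
        have hi' : Integrable fun t => Complex.I • (fderiv ℝ φ (x - t) Complex.I • v' t) :=
          (hint Complex.I).smul Complex.I
        rw [← integral_smul Complex.I, ← integral_add (hint 1) hi', ← integral_smul,
          ← integral_neg]
        refine integral_congr_ae (Eventually.of_forall fun t => ?_)
        simp only [dbar, hηd]
        rw [← Complex.coe_smul, ← Complex.coe_smul, smul_smul, ← add_smul, smul_smul, ← neg_smul]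
        congr 1
        ring
    _ = - ∫ t, dbar η t • v t := by
        congr 1
        refine integral_congr_ae (Eventually.of_forall fun t => ?_)
        by_cases ht : t ∈ closedBall x δ
        · simp only [e1 t ht]
        · simp only [hz t ht, zero_smul]
    _ = ∫ t, η t • q t := by rw [key, neg_neg]
    _ = mol δ hδ q' x := by
        rw [mol_apply]
        refine integral_congr_ae (Eventually.of_forall fun t => ?_)
        by_cases ht : t ∈ closedBall x δ
        · simp only [e2 t ht, hη]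
          rw [Complex.coe_smul]
        · have h1 : η t = 0 := by
            by_contra h2
            exact ht (hsupp h2)
          have h3 : φ (x - t) = 0 := by
            have := h1
            simp only [hη] at this
            exact_mod_cast this
          simp only [h1, zero_smul]
          rw [← hφ, h3, zero_smul]

end mol

/-- approximation by smooth functions, together with `∂̄` -/
theorem WDb.approx [CompleteSpace E] {Ω : Set ℂ} (hΩ : IsOpen Ω) {v q : ℂ → E} (hv : ContinuousOn v Ω)
    (hq : ContinuousOn q Ω) (h : WDb Ω v q) {K : Set ℂ} (hK : IsCompact K) (hKΩ : K ⊆ Ω)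
    {ε : ℝ} (hε : 0 < ε) : ∃ v' : ℂ → E, ContDiff ℝ ∞ v' ∧
      ∀ z ∈ K, ‖v' z - v z‖ < ε ∧ ‖dbarV v' z - q z‖ < ε ∧
        ((∀ y, q y = 0) → dbarV v' z = 0) := by
  obtain ⟨r, hr, hrΩ⟩ := hK.exists_cthickening_subset_open hΩ hKΩ
  set K' := cthickening r K with hK'
  have hK'c : IsCompact K' := hK.cthickening
  have hKK' : K ⊆ K' := self_subset_cthickening K
  have huv : UniformContinuousOn v K' := hK'c.uniformContinuousOn_of_continuous (hv.mono hrΩ)
  have huq : UniformContinuousOn q K' := hK'c.uniformContinuousOn_of_continuous (hq.mono hrΩ)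
  obtain ⟨d1, hd1, h1⟩ := Metric.uniformContinuousOn_iff.1 huv (ε / 2) (by positivity)
  obtain ⟨d2, hd2, h2⟩ := Metric.uniformContinuousOn_iff.1 huq (ε / 2) (by positivity)
  set δ := min r (min d1 d2) / 2 with hδdef
  have hδ : 0 < δ := by positivity
  have hδr : δ < r := by
    have : min r (min d1 d2) ≤ r := min_le_left _ _
    linarith
  have hδ1 : δ < d1 := by
    have : min r (min d1 d2) ≤ d1 := (min_le_right _ _).trans (min_le_left _ _)
    linarith
  have hδ2 : δ < d2 := by
    have : min r (min d1 d2) ≤ d2 := (min_le_right _ _).trans (min_le_right _ _)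
    linarith
  have hball : ∀ x ∈ K, closedBall x δ ⊆ K' := fun x hx y hy => by
    refine mem_cthickening_of_dist_le y x r K hx ?_
    exact (mem_closedBall.1 hy).trans hδr.le
  have hiv : ∀ {u : ℂ → E}, ContinuousOn u Ω → Integrable (K'.indicator u) := fun hu =>
    ((hu.mono hrΩ).integrableOn_compact hK'c).integrable_indicator hK'c.measurableSet
  refine ⟨mol δ hδ (K'.indicator v), mol_contDiff hδ (hiv hv).locallyIntegrable, fun z hz => ?_⟩
  have hz' : z ∈ K' := hKK' hz
  refine ⟨?_, ?_, fun hq0 => ?_⟩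
  · rw [← dist_eq_norm]
    have h3 := mol_dist hδ (hiv hv).aestronglyMeasurable (x := z) (ε := ε / 2) ?_
    · rw [indicator_of_mem hz'] at h3
      linarith
    · intro y hy
      have hy' : y ∈ K' := hball z hz (ball_subset_closedBall hy)
      rw [indicator_of_mem hz', indicator_of_mem hy']
      exact (h1 y hy' z hz' ((mem_ball.1 hy).trans hδ1)).le
  · rw [mol_dbar hδ h (hiv hv).locallyIntegrable ((hball z hz).trans hrΩ) (q' := K'.indicator q)
      (fun y hy => indicator_of_mem (hball z hz hy) _)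
      (fun y hy => indicator_of_mem (hball z hz hy) _), ← dist_eq_norm]
    have h3 := mol_dist hδ (hiv hq).aestronglyMeasurable (x := z) (ε := ε / 2) ?_
    · rw [indicator_of_mem hz'] at h3
      linarith
    · intro y hy
      have hy' : y ∈ K' := hball z hz (ball_subset_closedBall hy)
      rw [indicator_of_mem hz', indicator_of_mem hy']
      exact (h2 y hy' z hz' ((mem_ball.1 hy).trans hδ2)).le
  · rw [mol_dbar hδ h (hiv hv).locallyIntegrable ((hball z hz).trans hrΩ) (q' := fun _ => 0)
      (fun y hy => indicator_of_mem (hball z hz hy) _) (fun y _ => (hq0 y).symm), mol_apply]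
    simp

/-- converse: local uniform limits of `C¹` functions together with `∂̄` -/
theorem WDb.of_approx {Ω : Set ℂ} (hΩ : IsOpen Ω) {v q : ℂ → E} (hv : ContinuousOn v Ω)
    (hq : ContinuousOn q Ω) (h : ∀ K : Set ℂ, IsCompact K → K ⊆ Ω → ∀ ε : ℝ, 0 < ε →
      ∃ (v' : ℂ → E) (U : Set ℂ), IsOpen U ∧ K ⊆ U ∧ ContDiffOn ℝ 1 v' U ∧
      ∀ z ∈ K, ‖v' z - v z‖ ≤ ε ∧ ‖dbarV v' z - q z‖ ≤ ε) : WDb Ω v q := by
  intro η hη hc hs
  set C : ℝ := (∫ z, ‖dbar η z‖) + ∫ z, ‖η z‖ with hC
  have hC0 : 0 ≤ C := add_nonneg (integral_nonneg fun _ => norm_nonneg _)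
    (integral_nonneg fun _ => norm_nonneg _)
  have hdc : Continuous (dbar η) := (contDiff_dbar hη).continuous
  have hds : HasCompactSupport (dbar η) := hasCompactSupport_dbar hc
  have hi1 : Integrable fun z => dbar η z • v z :=
    integrable_smul_of_tsupport hΩ hdc hds hv ((tsupport_dbar η).trans hs)
  have hi2 : Integrable fun z => η z • q z :=
    integrable_smul_of_tsupport hΩ hη.continuous hc hq hs
  have hn1 : Integrable fun z => ‖dbar η z‖ := (hdc.integrable_of_hasCompactSupport hds).norm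
  have hn2 : Integrable fun z => ‖η z‖ := (hη.continuous.integrable_of_hasCompactSupport hc).norm
  have key : ∀ ε : ℝ, 0 < ε → ‖(∫ z, dbar η z • v z) + ∫ z, η z • q z‖ ≤ ε * C := by
    intro ε hε
    obtain ⟨v', U, hU, hKU, hv', hap⟩ := h (tsupport η) hc hs ε hε
    have h1 := WDb.of_contDiffOn hU hv' η hη hc hKU
    have hi3 : Integrable fun z => dbar η z • v' z :=
      integrable_smul_of_tsupport hU hdc hds hv'.continuousOn ((tsupport_dbar η).trans hKU)
    have hi4 : Integrable fun z => η z • dbarV v' z :=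
      integrable_smul_of_tsupport hU hη.continuous hc (continuousOn_dbarV hU hv') hKU
    have e1 : (∫ z, dbar η z • v z) + ∫ z, η z • q z =
        (∫ z, dbar η z • (v z - v' z)) + ∫ z, η z • (q z - dbarV v' z) := by
      simp_rw [smul_sub]
      rw [integral_sub hi1 hi3, integral_sub hi2 hi4, h1]
      abel
    rw [e1]
    have b1 : ‖∫ z, dbar η z • (v z - v' z)‖ ≤ ε * ∫ z, ‖dbar η z‖ := by
      rw [← integral_const_mul]
      refine norm_integral_le_of_norm_le (hn1.const_mul ε) (Eventually.of_forall fun z => ?_)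
      rw [norm_smul, mul_comm]
      by_cases hz : z ∈ tsupport η
      · refine mul_le_mul_of_nonneg_right ?_ (norm_nonneg _)
        rw [norm_sub_rev]
        exact (hap z hz).1
      · have : dbar η z = 0 := by
          by_contra h2
          exact hz (tsupport_dbar η (subset_tsupport _ h2))
        rw [this, norm_zero, mul_zero, mul_zero]
    have b2 : ‖∫ z, η z • (q z - dbarV v' z)‖ ≤ ε * ∫ z, ‖η z‖ := by
      rw [← integral_const_mul]
      refine norm_integral_le_of_norm_le (hn2.const_mul ε) (Eventually.of_forall fun z => ?_)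
      rw [norm_smul, mul_comm]
      by_cases hz : z ∈ tsupport η
      · refine mul_le_mul_of_nonneg_right ?_ (norm_nonneg _)
        rw [norm_sub_rev]
        exact (hap z hz).2
      · have : η z = 0 := by
          by_contra h2
          exact hz (subset_tsupport _ h2)
        rw [this, norm_zero, mul_zero, mul_zero]
    calc _ ≤ _ := norm_add_le _ _
      _ ≤ ε * (∫ z, ‖dbar η z‖) + ε * ∫ z, ‖η z‖ := add_le_add b1 b2
      _ = ε * C := by rw [hC]; ring
  have h0 : ‖(∫ z, dbar η z • v z) + ∫ z, η z • q z‖ ≤ 0 := by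
    refine le_of_forall_pos_le_add fun ε hε => ?_
    rw [zero_add]
    have := key (ε / (C + 1)) (by positivity)
    refine this.trans ?_
    rw [div_mul_eq_mul_div, div_le_iff₀ (by positivity)]
    nlinarith
  have h1 : (∫ z, dbar η z • v z) + ∫ z, η z • q z = 0 := norm_le_zero_iff.1 h0
  exact eq_neg_of_add_eq_zero_left h1

/-! ### Weyl's lemma -/

/-- **Weyl's lemma**: weakly holomorphic continuous functions are holomorphic -/
theorem WDb.holo [CompleteSpace E] {Ω : Set ℂ} (hΩ : IsOpen Ω) {v : ℂ → E}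
    (hv : ContinuousOn v Ω) (h : WDb Ω v fun _ => 0) : DifferentiableOn ℂ v Ω := by
  intro z0 hz0
  obtain ⟨r, hr, hrΩ⟩ := Metric.nhds_basis_closedBall.mem_iff.1 (hΩ.mem_nhds hz0)
  have hap := fun k : ℕ => h.approx hΩ hv continuousOn_const (isCompact_closedBall z0 r) hrΩ
    (ε := 1 / ((k : ℝ) + 1)) (by positivity)
  choose w hw hw' using hap
  have hhol : ∀ k, DifferentiableOn ℂ (w k) (ball z0 r) := fun k z hz => by
    refine DifferentiableAt.differentiableWithinAt ?_
    rw [← dbarV_eq_zero_iff (((hw k).differentiable (by simp)) z)]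
    exact (hw' k z (ball_subset_closedBall hz)).2.2 fun _ => rfl
  have hlim : TendstoLocallyUniformlyOn w v atTop (ball z0 r) := by
    refine TendstoUniformlyOn.tendstoLocallyUniformlyOn ?_
    rw [Metric.tendstoUniformlyOn_iff]
    intro ε hε
    obtain ⟨N, hN⟩ := exists_nat_one_div_lt hε
    filter_upwards [eventually_ge_atTop N] with k hk z hz
    rw [dist_comm, dist_eq_norm]
    refine (hw' k z (ball_subset_closedBall hz)).1.trans_le ?_
    refine le_trans ?_ hN.le
    exact one_div_le_one_div_of_le (by positivity) (by exact_mod_cast Nat.succ_le_succ hk)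
  have h1 := hlim.differentiableOn (Eventually.of_forall hhol) isOpen_ball
  exact (h1.differentiableAt (ball_mem_nhds z0 hr)).differentiableWithinAt

theorem WDb.mono {Ω Ω' : Set ℂ} {v q : ℂ → E} (h : WDb Ω v q) (h' : Ω' ⊆ Ω) : WDb Ω' v q :=
  fun η h1 h2 h3 => h η h1 h2 (h3.trans h')

theorem WDb.congr {Ω : Set ℂ} {v q v' q' : ℂ → E} (h : WDb Ω v q) (hv : EqOn v v' Ω)
    (hq : EqOn q q' Ω) : WDb Ω v' q' := by
  intro η h1 h2 h3
  have e1 : ∫ z, dbar η z • v' z = ∫ z, dbar η z • v z := by
    refine integral_congr_ae (Eventually.of_forall fun z => ?_)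
    by_cases hz : z ∈ tsupport η
    · simp only [hv (h3 hz)]
    · have : dbar η z = 0 := by
        by_contra h4
        exact hz (tsupport_dbar η (subset_tsupport _ h4))
      simp only [this, zero_smul]
  have e2 : ∫ z, η z • q' z = ∫ z, η z • q z := by
    refine integral_congr_ae (Eventually.of_forall fun z => ?_)
    by_cases hz : z ∈ tsupport η
    · simp only [hq (h3 hz)]
    · have : η z = 0 := by
        by_contra h4
        exact hz (subset_tsupport _ h4)
      simp only [this, zero_smul]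
  rw [e1, e2]
  exact h η h1 h2 h3

theorem WDb.of_holo {Ω : Set ℂ} (hΩ : IsOpen Ω) {v : ℂ → E} [CompleteSpace E]
    (h : DifferentiableOn ℂ v Ω) : WDb Ω v fun _ => 0 := by
  have h1 : ContDiffOn ℝ 1 v Ω := (h.contDiffOn (n := 1) hΩ).restrict_scalars ℝ
  refine (WDb.of_contDiffOn hΩ h1).congr (fun _ _ => rfl) fun z hz => ?_
  have h2 : DifferentiableAt ℂ v z := h.differentiableAt (hΩ.mem_nhds hz)
  exact (dbarV_eq_zero_iff (h2.restrictScalars ℝ)).2 h2

theorem WDb.prodMk {Ω : Set ℂ} (hΩ : IsOpen Ω) {v q : ℂ → E} {w r : ℂ → F} [CompleteSpace E]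
    [CompleteSpace F] (hv : ContinuousOn v Ω) (hq : ContinuousOn q Ω) (hw : ContinuousOn w Ω)
    (hr : ContinuousOn r Ω) (h1 : WDb Ω v q) (h2 : WDb Ω w r) :
    WDb Ω (fun z => (v z, w z)) fun z => (q z, r z) := by
  refine WDb.of_approx hΩ (hv.prodMk hw) (hq.prodMk hr) fun K hK hKΩ ε hε => ?_
  obtain ⟨v', hv', a1⟩ := h1.approx hΩ hv hq hK hKΩ hε
  obtain ⟨w', hw', a2⟩ := h2.approx hΩ hw hr hK hKΩ hε
  refine ⟨fun z => (v' z, w' z), univ, isOpen_univ, subset_univ _,
    ((hv'.prodMk hw').of_le (by simp)).contDiffOn, fun z hz => ?_⟩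
  have e1 : dbarV (fun z => (v' z, w' z)) z = (dbarV v' z, dbarV w' z) := by
    unfold dbarV
    have := ((hv'.differentiable (by simp)) z).fderiv_prodMk ((hw'.differentiable (by simp)) z)
    rw [this]
    rfl
  rw [e1]
  exact ⟨norm_prod_le_iff.2 ⟨(a1 z hz).1.le, (a2 z hz).1.le⟩,
    norm_prod_le_iff.2 ⟨(a1 z hz).2.1.le, (a2 z hz).2.1.le⟩⟩

/-- **chain rule** -/
theorem WDb.comp [CompleteSpace E] {Ω : Set ℂ} (hΩ : IsOpen Ω) {v q : ℂ → E}
    (hv : ContinuousOn v Ω) (hq : ContinuousOn q Ω) (h : WDb Ω v q) {W : Set (ℂ × E)}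
    (hW : IsOpen W) {Φ : ℂ × E → F} (hΦ : ContDiffOn ℝ 1 Φ W)
    (hlin : ∀ p ∈ W, ∀ a : E, fderiv ℝ Φ p (0, Complex.I • a) = Complex.I • fderiv ℝ Φ p (0, a))
    (hgr : ∀ z ∈ Ω, (z, v z) ∈ W) :
    WDb Ω (fun z => Φ (z, v z)) fun z => (1 / 2 : ℂ) • (fderiv ℝ Φ (z, v z) (1, 0) +
      Complex.I • fderiv ℝ Φ (z, v z) (Complex.I, 0)) + fderiv ℝ Φ (z, v z) (0, q z) := by
  have hΦc : ContinuousOn Φ W := hΦ.continuousOn
  have hΦd : ContinuousOn (fderiv ℝ Φ) W := hΦ.continuousOn_fderiv_of_isOpen hW (le_refl _)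
  -- the derivative as a function of all data
  set G : (ℂ × E) × E → F := fun x => (1 / 2 : ℂ) • (fderiv ℝ Φ x.1 (1, 0) +
    Complex.I • fderiv ℝ Φ x.1 (Complex.I, 0)) + fderiv ℝ Φ x.1 (0, x.2) with hG
  have hGc : ContinuousOn G (W ×ˢ univ) := by
    have h1 : ContinuousOn (fun x : (ℂ × E) × E => fderiv ℝ Φ x.1) (W ×ˢ univ) :=
      hΦd.comp continuousOn_fst fun x hx => hx.1
    exact (continuousOn_const.smul ((h1.clm_apply continuousOn_const).add
      (continuousOn_const.smul (h1.clm_apply continuousOn_const)))).add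
      (h1.clm_apply (continuousOn_const.prodMk continuousOn_snd))
  have hgc : ContinuousOn (fun z => ((z, v z), q z)) Ω :=
    (continuousOn_id.prodMk hv).prodMk hq
  have hmaps : MapsTo (fun z => ((z, v z), q z)) Ω (W ×ˢ univ) := fun z hz => ⟨hgr z hz, trivial⟩
  refine WDb.of_approx hΩ ?_ (hGc.comp hgc hmaps) fun K hK hKΩ ε hε => ?_
  · exact hΦc.comp (continuousOn_id.prodMk hv) hgr
  -- uniform continuity near the compact graph
  set C : Set ((ℂ × E) × E) := (fun z => ((z, v z), q z)) '' K with hC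
  have hCc : IsCompact C := hK.image_of_continuousOn (hgc.mono hKΩ)
  have hWo : IsOpen (W ×ˢ (univ : Set E)) := hW.prod isOpen_univ
  have hCW : C ⊆ W ×ˢ (univ : Set E) := by
    rintro _ ⟨z, hz, rfl⟩
    exact hmaps (hKΩ hz)
  obtain ⟨d0, hd0, hd0'⟩ := hCc.exists_thickening_subset_open hWo hCW
  have hcont : ∀ x ∈ C, ContinuousAt (fun x : (ℂ × E) × E => (Φ x.1, G x)) x := fun x hx => by
    have h1 : ContinuousAt Φ x.1 := hΦc.continuousAt (hW.mem_nhds (hCW hx).1)
    have h2 : ContinuousAt G x := hGc.continuousAt (hWo.mem_nhds (hCW hx))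
    exact (ContinuousAt.comp (f := Prod.fst) h1 continuousAt_fst).prodMk h2
  obtain ⟨d1, hd1, hd1'⟩ := Metric.mem_uniformity_dist.1
    (hCc.uniformContinuousAt_of_continuousAt _ hcont (Metric.dist_mem_uniformity hε))
  set d := min d0 d1 with hd
  have hdpos : 0 < d := lt_min hd0 hd1
  obtain ⟨v', hv', hap⟩ := h.approx hΩ hv hq hK hKΩ hdpos
  have hv'c : Continuous v' := hv'.continuous
  set U : Set ℂ := {z | (z, v' z) ∈ W} with hU
  have hUo : IsOpen U := hW.preimage (continuous_id.prodMk hv'c)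
  have hclose : ∀ z ∈ K, dist ((z, v z), q z) ((z, v' z), dbarV v' z) < d := fun z hz => by
    rw [Prod.dist_eq, Prod.dist_eq, dist_self]
    simp only
    rw [dist_comm (v z), dist_comm (q z), dist_eq_norm, dist_eq_norm]
    exact max_lt (max_lt hdpos (hap z hz).1) (hap z hz).2.1
  have hmemC : ∀ z ∈ K, ((z, v z), q z) ∈ C := fun z hz => ⟨z, hz, rfl⟩
  have hKU : K ⊆ U := fun z hz => by
    have : ((z, v' z), dbarV v' z) ∈ W ×ˢ (univ : Set E) := hd0' (by
      rw [mem_thickening_iff]
      refine ⟨_, hmemC z hz, ?_⟩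
      rw [dist_comm]
      exact (hclose z hz).trans_le (min_le_left _ _))
    exact this.1
  have hcd : ContDiffOn ℝ 1 (fun z => Φ (z, v' z)) U := by
    refine hΦ.comp ((contDiff_id.prodMk (hv'.of_le (by simp))).contDiffOn) fun z hz => hz
  refine ⟨fun z => Φ (z, v' z), U, hUo, hKU, hcd, fun z hz => ?_⟩
  have hzW : (z, v' z) ∈ W := hKU hz
  have hder : dbarV (fun z => Φ (z, v' z)) z = G ((z, v' z), dbarV v' z) := by
    have h1 : HasFDerivAt Φ (fderiv ℝ Φ (z, v' z)) (z, v' z) :=
      ((hΦ.differentiableOn (by simp)).differentiableAt (hW.mem_nhds hzW)).hasFDerivAt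
    have h2 : HasFDerivAt (fun z => (z, v' z))
        ((ContinuousLinearMap.id ℝ ℂ).prod (fderiv ℝ v' z)) z :=
      (hasFDerivAt_id z).prodMk ((hv'.differentiable (by simp)) z).hasFDerivAt
    have h3 := (h1.comp z h2).fderiv
    have h4 : fderiv ℝ (fun z => Φ (z, v' z)) z = (fderiv ℝ Φ (z, v' z)).comp
        ((ContinuousLinearMap.id ℝ ℂ).prod (fderiv ℝ v' z)) := h3
    have h5 : ∀ w : ℂ, fderiv ℝ (fun z => Φ (z, v' z)) z w =
        fderiv ℝ Φ (z, v' z) (w, 0) + fderiv ℝ Φ (z, v' z) (0, fderiv ℝ v' z w) := by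
      intro w
      rw [h4, ← map_add, Prod.mk_add_mk, add_zero, zero_add]
      rfl
    have h6 : fderiv ℝ Φ (z, v' z) (0, dbarV v' z) = (1 / 2 : ℂ) •
        (fderiv ℝ Φ (z, v' z) (0, fderiv ℝ v' z 1) +
          Complex.I • fderiv ℝ Φ (z, v' z) (0, fderiv ℝ v' z Complex.I)) := by
      have e1 : ∀ x : F, (1 / 2 : ℂ) • x = (1 / 2 : ℝ) • x := fun x => by
        rw [← Complex.coe_smul]
        congr 1
        push_cast
        rfl
      have e2 : ((0 : ℂ), dbarV v' z) = (1 / 2 : ℝ) • (((0 : ℂ), fderiv ℝ v' z 1) +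
          ((0 : ℂ), Complex.I • fderiv ℝ v' z Complex.I)) := by
        rw [Prod.mk_add_mk, add_zero, Prod.smul_mk, smul_zero, ← Complex.coe_smul]
        unfold dbarV
        congr 2
        push_cast
        rfl
      rw [e2, map_smul, map_add, hlin _ hzW, e1]
    simp only [hG]
    rw [h6]
    unfold dbarV
    rw [h5, h5, ← smul_add]
    congr 1
    rw [smul_add]
    abel
  have huc := @hd1' ((z, v z), q z) ((z, v' z), dbarV v' z)
    ((hclose z hz).trans_le (min_le_right _ _)) (hmemC z hz)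
  have huc' : dist (Φ (z, v z), G ((z, v z), q z))
      (Φ (z, v' z), G ((z, v' z), dbarV v' z)) < ε := huc
  rw [Prod.dist_eq, max_lt_iff] at huc'
  constructor
  · rw [← dist_eq_norm, dist_comm]
    exact huc'.1.le
  · rw [hder, ← dist_eq_norm, dist_comm]
    exact huc'.2.le

/-- chain rule for holomorphic functions (no dependence on `z`) -/
theorem WDb.comp_holo [CompleteSpace E] [CompleteSpace F] {Ω : Set ℂ} (hΩ : IsOpen Ω)
    {v q : ℂ → E} (hv : ContinuousOn v Ω) (hq : ContinuousOn q Ω) (h : WDb Ω v q)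
    {Φ : E → F} {W : Set E} (hW : IsOpen W) (hΦ : ContDiffOn ℂ 1 Φ W)
    (hgr : ∀ z ∈ Ω, v z ∈ W) : WDb Ω (fun z => Φ (v z)) fun z => fderiv ℂ Φ (v z) (q z) := by
  have hΦr : ContDiffOn ℝ 1 Φ W := hΦ.restrict_scalars ℝ
  have hd : ∀ a ∈ W, fderiv ℝ Φ a = (fderiv ℂ Φ a).restrictScalars ℝ := fun a ha =>
    ((hΦ.differentiableOn (by simp)).differentiableAt (hW.mem_nhds ha)).fderiv_restrictScalars ℝ
  have hD : ∀ p ∈ (univ : Set ℂ) ×ˢ W, ∀ w : ℂ × E,
      fderiv ℝ (fun x : ℂ × E => Φ x.2) p w = fderiv ℂ Φ p.2 w.2 := by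
    intro p hp w
    have h1 : HasFDerivAt Φ (fderiv ℝ Φ p.2) p.2 :=
      ((hΦr.differentiableOn (by simp)).differentiableAt (hW.mem_nhds hp.2)).hasFDerivAt
    have h2 : HasFDerivAt (fun x : ℂ × E => Φ x.2) _ p := h1.comp p hasFDerivAt_snd
    rw [h2.fderiv, hd _ hp.2]
    rfl
  have hmain := WDb.comp hΩ hv hq h (W := univ ×ˢ W) (isOpen_univ.prod hW)
    (Φ := fun x : ℂ × E => Φ x.2) (hΦr.comp contDiff_snd.contDiffOn fun x hx => hx.2)
    (fun p hp a => by rw [hD p hp, hD p hp, map_smul]) (fun z hz => ⟨trivial, hgr z hz⟩)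
  refine hmain.congr (fun _ _ => rfl) fun z hz => ?_
  simp only
  rw [hD _ ⟨trivial, hgr z hz⟩, hD _ ⟨trivial, hgr z hz⟩, hD _ ⟨trivial, hgr z hz⟩]
  simp

end

end Vale.Agent.P272.CT
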